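import Mathlib

set_option autoImplicit false

/-!
# The certificate inequality
-/

namespace Vale.Agent.P090

open Metric Set

/-- A separating function: `1`-Lipschitz, bounded by `ρ`, equal to `ρ` on `P` and to `-ρ` on
`P'`. -/
lemma exists_sep {M : Type*} [MetricSpace M] (P P' : Set M) {ρ : ℝ} (hρ : 0 ≤ ρ)
    (h : ∀ b ∈ P, ∀ b' ∈ P', 2 * ρ ≤ dist b b') :
    ∃ F : M → ℝ, (∀ x y, |F x - F y| ≤ dist x y) ∧ (∀ x, |F x| ≤ ρ) ∧ (∀ x ∈ P, F x = ρ) ∧
      (∀ x ∈ P', F x = -ρ) := by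
  by_cases hP : P.Nonempty
  · refine ⟨fun x => max (-ρ) (ρ - infDist x P), ?_, ?_, ?_, ?_⟩
    · intro x y
      have h1 : |infDist x P - infDist y P| ≤ dist x y := by
        have := (Metric.lipschitz_infDist_pt P).dist_le_mul x y
        rw [NNReal.coe_one, one_mul] at this
        exact this
      have h2 : |max (-ρ) (ρ - infDist x P) - max (-ρ) (ρ - infDist y P)| ≤
          |(ρ - infDist x P) - (ρ - infDist y P)| := by
        have := abs_max_sub_max_le_abs (ρ - infDist x P) (ρ - infDist y P) (-ρ)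
        rw [max_comm (-ρ), max_comm (-ρ)]
        exact this
      have h3 : (ρ - infDist x P) - (ρ - infDist y P) = -(infDist x P - infDist y P) := by ring
      rw [h3, abs_neg] at h2
      exact h2.trans h1
    · intro x
      have := infDist_nonneg (x := x) (s := P)
      rw [abs_le]
      exact ⟨le_max_left _ _, max_le (by linarith) (by linarith)⟩
    · intro x hx
      have h0 : infDist x P = 0 := infDist_zero_of_mem hx
      simp only [h0, sub_zero]
      exact max_eq_right (by linarith)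
    · intro x hx
      apply max_eq_left
      have : 2 * ρ ≤ infDist x P := by
        apply (le_infDist hP).2
        intro y hy
        rw [dist_comm]
        exact h y hy x hx
      linarith
  · refine ⟨fun _ => -ρ, ?_, ?_, ?_, ?_⟩
    · intro x y; simp [dist_nonneg]
    · intro x; simp [abs_of_nonneg hρ]
    · intro x hx; exact absurd ⟨x, hx⟩ hP
    · intro x _; rfl

/-- Product of a bounded Lipschitz function with another one. -/
lemma lip_mul {M : Type*} [MetricSpace M] {f g : M → ℝ} {A B C D : ℝ}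
    (hf : ∀ x y, |f x - f y| ≤ A * dist x y) (hfb : ∀ x, |f x| ≤ B)
    (hg : ∀ x y, |g x - g y| ≤ C * dist x y) (hgb : ∀ x, |g x| ≤ D) (x y : M) :
    |f x * g x - f y * g y| ≤ (A * D + B * C) * dist x y := by
  have h : f x * g x - f y * g y = (f x - f y) * g x + f y * (g x - g y) := by ring
  rw [h]
  have hB : 0 ≤ B := (abs_nonneg _).trans (hfb x)
  calc |(f x - f y) * g x + f y * (g x - g y)|
      ≤ |(f x - f y) * g x| + |f y * (g x - g y)| := abs_add_le _ _
    _ = |f x - f y| * |g x| + |f y| * |g x - g y| := by rw [abs_mul, abs_mul]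
    _ ≤ (A * dist x y) * D + B * (C * dist x y) := by
        apply add_le_add
        · exact mul_le_mul (hf x y) (hgb x) (abs_nonneg _) ((abs_nonneg _).trans (hf x y))
        · exact mul_le_mul (hfb y) (hg x y) (abs_nonneg _) hB
    _ = (A * D + B * C) * dist x y := by ring

/-- The data of the certificate argument. -/
structure Cert (M V S : Type*) [MetricSpace M] [Fintype V] [Fintype S] where
  B : Finset M
  mv : S → V → V
  p : V → M
  a : V → M
  w : V → M → ℝ
  Q : V → S → M → Prop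
  D : V → S → M → Prop
  h : ℝ
  ρ : ℝ
  R : ℝ
  Lam : ℝ
  E : ℝ
  ρ_nonneg : 0 ≤ ρ
  R_pos : 0 < R
  E_nonneg : 0 ≤ E
  one_le : ∀ x y : M, x ≠ y → 1 ≤ dist x y
  mv_mv : ∀ s v, mv s (mv s v) = v
  dist_p : ∀ s v, dist (p v) (p (mv s v)) ≤ 1
  dist_a : ∀ v, dist (p v) (a v) ≤ h
  Q_mv : ∀ v s b, Q (mv s v) s b ↔ ¬ Q v s b
  n : V → M → ℝ
  n_def : ∀ v b, ∃ T : Finset S, (∀ s, s ∈ T ↔ ¬ Q v s b) ∧ n v b = T.card
  n_lip : ∀ v b b', |n v b - n v b'| ≤ dist b b'
  Q_p : ∀ v s, Q v s (p v)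
  Q_a : ∀ v s, Q v s (a v)
  D_unique : ∀ v b s s', D v s b → D v s' b → s = s'
  D_sep : ∀ v s, ∀ b ∈ B, ∀ b' ∈ B, Q v s b → ¬ Q v s b' → dist b b' < 2 * ρ →
    D v s b ∨ D (mv s v) s b'
  w_move : ∀ s v (g : M → ℝ) (K : ℝ), 0 ≤ K → (∀ x y, |g x - g y| ≤ K * dist x y) →
    |∑ b ∈ B, w v b * g b - ∑ b ∈ B, w (mv s v) b * g b| ≤ Lam * K
  w_hub : ∀ v (g : M → ℝ) (K : ℝ), 0 ≤ K → (∀ x y, |g x - g y| ≤ K * dist x y) →
    |∑ b ∈ B, w v b * g b - g (a v)| ≤ E * K

namespace Cert

open Classical in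
/-- `±1` according to agreement of the coordinate. -/
noncomputable def chi {M V S : Type*} [MetricSpace M] [Fintype V] [Fintype S]
    (C : Cert M V S) (v : V) (s : S) (b : M) : ℝ := if C.Q v s b then 1 else -1

variable {M V S : Type*} [MetricSpace M] [Fintype V] [Fintype S] (C : Cert M V S)

lemma abs_chi (v : V) (s : S) (b : M) : |C.chi v s b| = 1 := by
  unfold chi; split_ifs <;> simp

/-- Cut-off function at `v`. -/
noncomputable def cp (v : V) (b : M) : ℝ := max 0 (1 - dist b (C.p v) / C.R)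

/-- Symmetrised cut-off function. -/
noncomputable def c (v : V) (s : S) (b : M) : ℝ := (C.cp v b + C.cp (C.mv s v) b) / 2

lemma cp_nonneg (v : V) (b : M) : 0 ≤ C.cp v b := le_max_left _ _

lemma cp_le_one (v : V) (b : M) : C.cp v b ≤ 1 := by
  have := C.R_pos
  exact max_le zero_le_one (by
    have : 0 ≤ dist b (C.p v) / C.R := by positivity
    linarith)

lemma abs_cp_le (v : V) (b : M) : |C.cp v b| ≤ 1 := by
  rw [abs_of_nonneg (C.cp_nonneg v b)]; exact C.cp_le_one v b

lemma cp_lip (v : V) (x y : M) : |C.cp v x - C.cp v y| ≤ (1 / C.R) * dist x y := by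
  have hR := C.R_pos
  unfold cp
  have h2 : |max (1 - dist x (C.p v) / C.R) 0 - max (1 - dist y (C.p v) / C.R) 0| ≤
      |(1 - dist x (C.p v) / C.R) - (1 - dist y (C.p v) / C.R)| :=
    abs_max_sub_max_le_abs _ _ _
  rw [max_comm 0, max_comm 0]
  refine h2.trans ?_
  have h3 : (1 - dist x (C.p v) / C.R) - (1 - dist y (C.p v) / C.R) =
      -((1 / C.R) * (dist x (C.p v) - dist y (C.p v))) := by ring
  rw [h3, abs_neg, abs_mul, abs_of_pos (by positivity : 0 < 1 / C.R)]
  exact mul_le_mul_of_nonneg_left (abs_dist_sub_le _ _ _) (by positivity)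

lemma cp_mv (s : S) (v : V) (b : M) : |C.cp (C.mv s v) b - C.cp v b| ≤ 1 / C.R := by
  have hR := C.R_pos
  unfold cp
  have h2 : |max (1 - dist b (C.p (C.mv s v)) / C.R) 0 - max (1 - dist b (C.p v) / C.R) 0| ≤
      |(1 - dist b (C.p (C.mv s v)) / C.R) - (1 - dist b (C.p v) / C.R)| :=
    abs_max_sub_max_le_abs _ _ _
  rw [max_comm 0, max_comm 0]
  refine h2.trans ?_
  have h3 : (1 - dist b (C.p (C.mv s v)) / C.R) - (1 - dist b (C.p v) / C.R) =
      (1 / C.R) * (dist b (C.p v) - dist b (C.p (C.mv s v))) := by ring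
  rw [h3, abs_mul, abs_of_pos (by positivity : 0 < 1 / C.R)]
  have h4 : |dist b (C.p v) - dist b (C.p (C.mv s v))| ≤ 1 := by
    rw [dist_comm b, dist_comm b]
    exact (abs_dist_sub_le _ _ _).trans (C.dist_p s v)
  calc 1 / C.R * |dist b (C.p v) - dist b (C.p (C.mv s v))| ≤ 1 / C.R * 1 :=
        mul_le_mul_of_nonneg_left h4 (by positivity)
    _ = 1 / C.R := mul_one _

lemma c_nonneg (v : V) (s : S) (b : M) : 0 ≤ C.c v s b := by
  have h1 := C.cp_nonneg v b
  have h2 := C.cp_nonneg (C.mv s v) b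
  unfold c; linarith

lemma c_le_one (v : V) (s : S) (b : M) : C.c v s b ≤ 1 := by
  have h1 := C.cp_le_one v b
  have h2 := C.cp_le_one (C.mv s v) b
  unfold c; linarith

lemma abs_c_le (v : V) (s : S) (b : M) : |C.c v s b| ≤ 1 := by
  rw [abs_of_nonneg (C.c_nonneg v s b)]; exact C.c_le_one v s b

lemma c_mv (v : V) (s : S) (b : M) : C.c (C.mv s v) s b = C.c v s b := by
  unfold c; rw [C.mv_mv, add_comm]

lemma c_lip (v : V) (s : S) (x y : M) : |C.c v s x - C.c v s y| ≤ (1 / C.R) * dist x y := by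
  have h1 := C.cp_lip v x y
  have h2 := C.cp_lip (C.mv s v) x y
  unfold c
  rw [abs_le] at *
  constructor <;> linarith [h1.1, h1.2, h2.1, h2.2]

lemma c_eq_zero (v : V) (s : S) (b : M) (hb : C.R + 1 ≤ dist b (C.p v)) : C.c v s b = 0 := by
  have hR := C.R_pos
  have h1 : C.cp v b = 0 := by
    apply max_eq_left
    rw [sub_nonpos, one_le_div hR]; linarith
  have h2 : C.cp (C.mv s v) b = 0 := by
    apply max_eq_left
    rw [sub_nonpos, one_le_div hR]
    have h3 := dist_triangle b (C.p (C.mv s v)) (C.p v)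
    have h4 := C.dist_p s v
    rw [dist_comm] at h4
    linarith
  unfold c; rw [h1, h2]; simp

/-- The set of good points for `(v, s)`. -/
def P (v : V) (s : S) : Set M := {b | b ∈ C.B ∧ C.Q v s b ∧ ¬ C.D v s b}

lemma P_sep (v : V) (s : S) : ∀ b ∈ C.P v s, ∀ b' ∈ C.P (C.mv s v) s, 2 * C.ρ ≤ dist b b' := by
  rintro b ⟨hb, hQ, hD⟩ b' ⟨hb', hQ', hD'⟩
  by_contra hlt
  push Not at hlt
  rw [C.Q_mv] at hQ'
  rcases C.D_sep v s b hb b' hb' hQ hQ' hlt with h | h
  · exact hD h
  · exact hD' h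

/-- The separating function for `(v, s)`. -/
noncomputable def F (v : V) (s : S) : M → ℝ :=
  Classical.choose (exists_sep (C.P v s) (C.P (C.mv s v) s) C.ρ_nonneg (C.P_sep v s))

lemma F_spec (v : V) (s : S) : (∀ x y, |C.F v s x - C.F v s y| ≤ dist x y) ∧
    (∀ x, |C.F v s x| ≤ C.ρ) ∧ (∀ x ∈ C.P v s, C.F v s x = C.ρ) ∧
      (∀ x ∈ C.P (C.mv s v) s, C.F v s x = -C.ρ) :=
  Classical.choose_spec (exists_sep (C.P v s) (C.P (C.mv s v) s) C.ρ_nonneg (C.P_sep v s))

/-- The antisymmetrised separating function. -/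
noncomputable def f (v : V) (s : S) (b : M) : ℝ := (C.F v s b - C.F (C.mv s v) s b) / 2

lemma f_mv (v : V) (s : S) (b : M) : C.f (C.mv s v) s b = - C.f v s b := by
  unfold f; rw [C.mv_mv]; ring

lemma f_lip (v : V) (s : S) (x y : M) : |C.f v s x - C.f v s y| ≤ 1 * dist x y := by
  have h1 := (C.F_spec v s).1 x y
  have h2 := (C.F_spec (C.mv s v) s).1 x y
  unfold f
  rw [abs_le] at *
  constructor <;> linarith [h1.1, h1.2, h2.1, h2.2]

lemma abs_f_le (v : V) (s : S) (x : M) : |C.f v s x| ≤ C.ρ := by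
  have h1 := (C.F_spec v s).2.1 x
  have h2 := (C.F_spec (C.mv s v) s).2.1 x
  unfold f
  rw [abs_le] at *
  constructor <;> linarith [h1.1, h1.2, h2.1, h2.2]

lemma f_eq (v : V) (s : S) (x : M) (hx : x ∈ C.P v s) : C.f v s x = C.ρ := by
  have h1 := (C.F_spec v s).2.2.1 x hx
  have h2 := (C.F_spec (C.mv s v) s).2.2.2 x (by rw [C.mv_mv]; exact hx)
  unfold f; rw [h1, h2]; ring

open Classical in
lemma f_chi (v : V) (s : S) (b : M) (hb : b ∈ C.B) :
    |C.f v s b - C.ρ * C.chi v s b| ≤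
      2 * C.ρ * ((if C.D v s b then 1 else 0) + (if C.Q v s b then 0 else 1)) := by
  have h0 := C.ρ_nonneg
  have h1 := C.abs_f_le v s b
  have h2 := abs_le.1 h1
  by_cases hQ : C.Q v s b
  · by_cases hD : C.D v s b
    · simp only [chi, hQ, hD, if_true]
      rw [abs_le]; constructor <;> linarith [h2.1, h2.2]
    · have h3 := C.f_eq v s b ⟨hb, hQ, hD⟩
      simp [chi, hQ, hD, h3]
  · simp only [chi, hQ, if_false]
    have h4 : (0:ℝ) ≤ (if C.D v s b then 1 else 0) := by split_ifs <;> norm_num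
    have h5 : 2 * C.ρ * 1 ≤ 2 * C.ρ * ((if C.D v s b then 1 else 0) + 1) :=
      mul_le_mul_of_nonneg_left (by linarith) (by linarith)
    refine le_trans ?_ h5
    rw [abs_le]; constructor <;> linarith [h2.1, h2.2]

open Classical in
lemma sum_D (v : V) (b : M) : ∑ s : S, (if C.D v s b then (1:ℝ) else 0) ≤ 1 := by
  rw [Finset.sum_ite, Finset.sum_const_zero, add_zero, Finset.sum_const, nsmul_eq_mul, mul_one]
  have : (Finset.univ.filter (fun s => C.D v s b)).card ≤ 1 := by
    rw [Finset.card_le_one]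
    intro s hs s' hs'
    simp only [Finset.mem_filter, Finset.mem_univ, true_and] at hs hs'
    exact C.D_unique v b s s' hs hs'
  exact_mod_cast this

open Classical in
lemma sum_Q (v : V) (b : M) : ∑ s : S, (if C.Q v s b then (0:ℝ) else 1) = C.n v b := by
  obtain ⟨T, hT, hn⟩ := C.n_def v b
  have h1 : T = Finset.univ.filter (fun s => ¬ C.Q v s b) := by
    ext s; simp [hT s]
  rw [hn, h1, Finset.sum_ite, Finset.sum_const_zero, zero_add, Finset.sum_const, nsmul_eq_mul,
    mul_one]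

lemma n_p (v : V) : C.n v (C.p v) = 0 := by
  classical
  rw [← C.sum_Q]; simp [C.Q_p]

lemma n_a (v : V) : C.n v (C.a v) = 0 := by
  classical
  rw [← C.sum_Q]; simp [C.Q_a]

lemma n_le (v : V) (b : M) : C.n v b ≤ dist b (C.p v) := by
  have h := C.n_lip v b (C.p v)
  rw [C.n_p, sub_zero] at h
  exact (le_abs_self _).trans h

lemma n_nonneg (v : V) (b : M) : 0 ≤ C.n v b := by
  obtain ⟨T, _, hn⟩ := C.n_def v b
  rw [hn]; positivity

lemma n_le_card (v : V) (b : M) : C.n v b ≤ Fintype.card S := by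
  obtain ⟨T, _, hn⟩ := C.n_def v b
  rw [hn]; exact_mod_cast T.card_le_univ

lemma sum_chi (v : V) (b : M) : ∑ s, C.chi v s b = Fintype.card S - 2 * C.n v b := by
  classical
  have h1 : ∀ s, C.chi v s b = 1 - 2 * (if C.Q v s b then (0:ℝ) else 1) := by
    intro s; unfold chi; split_ifs <;> norm_num
  simp_rw [h1]
  rw [Finset.sum_sub_distrib, ← Finset.mul_sum, C.sum_Q]
  simp

lemma err1 (v : V) (b : M) (hb : b ∈ C.B) :
    |∑ s, C.c v s b * C.f v s b - C.ρ * ∑ s, C.c v s b * C.chi v s b| ≤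
      2 * C.ρ * (C.R + 2) := by
  classical
  have h0 := C.ρ_nonneg
  have hR := C.R_pos
  have h1 : ∑ s, C.c v s b * C.f v s b - C.ρ * ∑ s, C.c v s b * C.chi v s b =
      ∑ s, C.c v s b * (C.f v s b - C.ρ * C.chi v s b) := by
    rw [Finset.mul_sum, ← Finset.sum_sub_distrib]
    exact Finset.sum_congr rfl fun s _ => by ring
  rw [h1]
  by_cases hd : C.R + 1 ≤ dist b (C.p v)
  · have : ∀ s, C.c v s b * (C.f v s b - C.ρ * C.chi v s b) = 0 := fun s => by
      rw [C.c_eq_zero v s b hd, zero_mul]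
    simp_rw [this]
    simp only [Finset.sum_const_zero, abs_zero]
    positivity
  · push Not at hd
    calc |∑ s, C.c v s b * (C.f v s b - C.ρ * C.chi v s b)|
        ≤ ∑ s, |C.c v s b * (C.f v s b - C.ρ * C.chi v s b)| := Finset.abs_sum_le_sum_abs _ _
      _ ≤ ∑ s, 2 * C.ρ * ((if C.D v s b then 1 else 0) + (if C.Q v s b then 0 else 1)) := by
          apply Finset.sum_le_sum
          intro s _
          rw [abs_mul]
          calc |C.c v s b| * |C.f v s b - C.ρ * C.chi v s b|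
              ≤ 1 * |C.f v s b - C.ρ * C.chi v s b| :=
                mul_le_mul_of_nonneg_right (C.abs_c_le v s b) (abs_nonneg _)
            _ = |C.f v s b - C.ρ * C.chi v s b| := one_mul _
            _ ≤ _ := C.f_chi v s b hb
      _ = 2 * C.ρ * (∑ s : S, (if C.D v s b then (1:ℝ) else 0) + C.n v b) := by
          rw [← Finset.mul_sum, Finset.sum_add_distrib, C.sum_Q]
      _ ≤ 2 * C.ρ * (C.R + 2) := by
          apply mul_le_mul_of_nonneg_left _ (by linarith)
          have h2 := C.sum_D v b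
          have h3 := C.n_le v b
          linarith

lemma err2 (v : V) (b : M) :
    |∑ s, C.c v s b * C.chi v s b - C.cp v b * (Fintype.card S - 2 * C.n v b)| ≤
      Fintype.card S / (2 * C.R) := by
  have hR := C.R_pos
  rw [← C.sum_chi, Finset.mul_sum, ← Finset.sum_sub_distrib]
  calc |∑ s, (C.c v s b * C.chi v s b - C.cp v b * C.chi v s b)|
      ≤ ∑ s, |C.c v s b * C.chi v s b - C.cp v b * C.chi v s b| :=
        Finset.abs_sum_le_sum_abs _ _
    _ ≤ ∑ _s : S, 1 / (2 * C.R) := by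
        apply Finset.sum_le_sum
        intro s _
        have h1 : C.c v s b * C.chi v s b - C.cp v b * C.chi v s b =
            ((C.cp (C.mv s v) b - C.cp v b) / 2) * C.chi v s b := by
          unfold c; ring
        rw [h1, abs_mul, C.abs_chi, mul_one, abs_div, abs_two]
        have h2 := C.cp_mv s v b
        calc |C.cp (C.mv s v) b - C.cp v b| / 2 ≤ (1 / C.R) / 2 := by linarith
          _ = 1 / (2 * C.R) := by field_simp
    _ = Fintype.card S / (2 * C.R) := by
        rw [Finset.sum_const, Finset.card_univ, nsmul_eq_mul]; ring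

lemma tv (v : V) : ∑ b ∈ C.B, |C.w v b| ≤ 1 + 2 * C.E := by
  classical
  let g : M → ℝ := fun b => if 0 ≤ C.w v b then 1 / 2 else -(1 / 2)
  have hg : ∀ b, |g b| ≤ 1 / 2 := by
    intro b; simp only [g]; split_ifs <;> norm_num
  have hlip : ∀ x y, |g x - g y| ≤ 1 * dist x y := by
    intro x y
    rcases eq_or_ne x y with rfl | hxy
    · simp
    · have h1 := C.one_le x y hxy
      have h2 := abs_le.1 (hg x)
      have h3 := abs_le.1 (hg y)
      rw [one_mul]
      refine le_trans ?_ h1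
      rw [abs_le]; constructor <;> linarith [h2.1, h2.2, h3.1, h3.2]
  have h := C.w_hub v g 1 zero_le_one hlip
  have h4 : ∑ b ∈ C.B, C.w v b * g b = (∑ b ∈ C.B, |C.w v b|) / 2 := by
    rw [Finset.sum_div]
    apply Finset.sum_congr rfl
    intro b _
    simp only [g]
    split_ifs with hb
    · rw [abs_of_nonneg hb]; ring
    · rw [abs_of_neg (not_le.1 hb)]; ring
  rw [h4] at h
  have h5 := abs_le.1 h
  have h6 := abs_le.1 (hg (C.a v))
  linarith [h5.1, h5.2, h6.1, h6.2]

lemma lower (v : V) :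
    C.ρ * ((1 - C.h / C.R) * Fintype.card S - C.E * (2 + Fintype.card S / C.R)
      - (1 + 2 * C.E) * (Fintype.card S / (2 * C.R))) - (1 + 2 * C.E) * (2 * C.ρ * (C.R + 2)) ≤
    ∑ b ∈ C.B, C.w v b * ∑ s, C.c v s b * C.f v s b := by
  have hρ := C.ρ_nonneg
  have hR := C.R_pos
  set Δ : ℝ := (Fintype.card S : ℝ) with hΔ
  have hΔ0 : 0 ≤ Δ := by positivity
  set K : ℝ := 1 + 2 * C.E with hK
  have htv := C.tv v
  -- error terms
  have e1 : |∑ b ∈ C.B, C.w v b * ∑ s, C.c v s b * C.f v s b -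
      C.ρ * ∑ b ∈ C.B, C.w v b * ∑ s, C.c v s b * C.chi v s b| ≤ K * (2 * C.ρ * (C.R + 2)) := by
    have h1 : ∑ b ∈ C.B, C.w v b * ∑ s, C.c v s b * C.f v s b -
        C.ρ * ∑ b ∈ C.B, C.w v b * ∑ s, C.c v s b * C.chi v s b =
        ∑ b ∈ C.B, C.w v b * (∑ s, C.c v s b * C.f v s b -
          C.ρ * ∑ s, C.c v s b * C.chi v s b) := by
      rw [Finset.mul_sum, ← Finset.sum_sub_distrib]
      exact Finset.sum_congr rfl fun b _ => by ring
    rw [h1]
    calc _ ≤ ∑ b ∈ C.B, |C.w v b * (∑ s, C.c v s b * C.f v s b -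
          C.ρ * ∑ s, C.c v s b * C.chi v s b)| := Finset.abs_sum_le_sum_abs _ _
      _ ≤ ∑ b ∈ C.B, |C.w v b| * (2 * C.ρ * (C.R + 2)) := by
          apply Finset.sum_le_sum
          intro b hb
          rw [abs_mul]
          exact mul_le_mul_of_nonneg_left (C.err1 v b hb) (abs_nonneg _)
      _ ≤ K * (2 * C.ρ * (C.R + 2)) := by
          rw [← Finset.sum_mul]
          exact mul_le_mul_of_nonneg_right htv (by positivity)
  have e2 : |∑ b ∈ C.B, C.w v b * ∑ s, C.c v s b * C.chi v s b -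
      ∑ b ∈ C.B, C.w v b * (C.cp v b * (Δ - 2 * C.n v b))| ≤ K * (Δ / (2 * C.R)) := by
    rw [← Finset.sum_sub_distrib]
    calc _ ≤ ∑ b ∈ C.B, |C.w v b * ∑ s, C.c v s b * C.chi v s b -
          C.w v b * (C.cp v b * (Δ - 2 * C.n v b))| := Finset.abs_sum_le_sum_abs _ _
      _ ≤ ∑ b ∈ C.B, |C.w v b| * (Δ / (2 * C.R)) := by
          apply Finset.sum_le_sum
          intro b hb
          rw [← mul_sub, abs_mul]
          exact mul_le_mul_of_nonneg_left (C.err2 v b) (abs_nonneg _)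
      _ ≤ K * (Δ / (2 * C.R)) := by
          rw [← Finset.sum_mul]
          exact mul_le_mul_of_nonneg_right htv (by positivity)
  have e3 : |∑ b ∈ C.B, C.w v b * (C.cp v b * (Δ - 2 * C.n v b)) -
      C.cp v (C.a v) * (Δ - 2 * C.n v (C.a v))| ≤ C.E * (2 + Δ / C.R) := by
    have hl : ∀ x y, |C.cp v x * (Δ - 2 * C.n v x) - C.cp v y * (Δ - 2 * C.n v y)| ≤
        ((1 / C.R) * Δ + 1 * 2) * dist x y := by
      refine lip_mul (fun x y => C.cp_lip v x y) (fun x => C.abs_cp_le v x) ?_ ?_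
      · intro x y
        have h1 := C.n_lip v x y
        have h2 : (Δ - 2 * C.n v x) - (Δ - 2 * C.n v y) = -(2 * (C.n v x - C.n v y)) := by ring
        rw [h2, abs_neg, abs_mul, abs_two]
        linarith
      · intro x
        have h1 := C.n_nonneg v x
        have h2 := C.n_le_card v x
        rw [abs_le]; constructor <;> linarith
    have := C.w_hub v (fun b => C.cp v b * (Δ - 2 * C.n v b)) ((1 / C.R) * Δ + 1 * 2)
      (by positivity) hl
    refine this.trans (le_of_eq ?_)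
    ring
  have e4 : (1 - C.h / C.R) * Δ ≤ C.cp v (C.a v) * (Δ - 2 * C.n v (C.a v)) := by
    rw [C.n_a, mul_zero, sub_zero]
    apply mul_le_mul_of_nonneg_right _ hΔ0
    apply le_max_of_le_right
    have h1 := C.dist_a v
    rw [dist_comm] at h1
    have : dist (C.a v) (C.p v) / C.R ≤ C.h / C.R := by
      exact div_le_div_of_nonneg_right h1 hR.le
    linarith
  have e1' := abs_le.1 e1
  have e2' := abs_le.1 e2
  have e3' := abs_le.1 e3
  have e5 : (1 - C.h / C.R) * Δ - C.E * (2 + Δ / C.R) - K * (Δ / (2 * C.R)) ≤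
      ∑ b ∈ C.B, C.w v b * ∑ s, C.c v s b * C.chi v s b := by
    linarith [e2'.1, e2'.2, e3'.1, e3'.2]
  have e6 := mul_le_mul_of_nonneg_left e5 hρ
  linarith [e1'.1, e1'.2]

lemma upper : ∑ v, ∑ b ∈ C.B, C.w v b * ∑ s, C.c v s b * C.f v s b ≤
    Fintype.card V * (Fintype.card S * (C.Lam * (1 + C.ρ / C.R) / 2)) := by
  have hρ := C.ρ_nonneg
  have hR := C.R_pos
  have h1 : ∑ v, ∑ b ∈ C.B, C.w v b * ∑ s, C.c v s b * C.f v s b =
      ∑ s, ∑ v, ∑ b ∈ C.B, C.w v b * (C.c v s b * C.f v s b) := by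
    symm
    rw [Finset.sum_comm]
    apply Finset.sum_congr rfl
    intro v _
    rw [Finset.sum_comm]
    apply Finset.sum_congr rfl
    intro b _
    rw [Finset.mul_sum]
  rw [h1]
  have h2 : ∀ s, ∑ v, ∑ b ∈ C.B, C.w v b * (C.c v s b * C.f v s b) ≤
      Fintype.card V * (C.Lam * (1 + C.ρ / C.R) / 2) := by
    intro s
    let A : V → ℝ := fun v => ∑ b ∈ C.B, C.w v b * (C.c v s b * C.f v s b)
    let e : V ≃ V := ⟨C.mv s, C.mv s, C.mv_mv s, C.mv_mv s⟩
    have h3 : ∑ v, A (C.mv s v) = ∑ v, A v := Equiv.sum_comp e A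
    have h4 : ∀ v, A v + A (C.mv s v) ≤ C.Lam * (1 + C.ρ / C.R) := by
      intro v
      have hl : ∀ x y, |C.c v s x * C.f v s x - C.c v s y * C.f v s y| ≤
          ((1 / C.R) * C.ρ + 1 * 1) * dist x y :=
        lip_mul (fun x y => C.c_lip v s x y) (fun x => C.abs_c_le v s x)
          (fun x y => C.f_lip v s x y) (fun x => C.abs_f_le v s x)
      have h5 := C.w_move s v (fun b => C.c v s b * C.f v s b) ((1 / C.R) * C.ρ + 1 * 1)
        (by positivity) hl
      have h6 : A (C.mv s v) = - ∑ b ∈ C.B, C.w (C.mv s v) b * (C.c v s b * C.f v s b) := by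
        simp only [A]
        rw [← Finset.sum_neg_distrib]
        apply Finset.sum_congr rfl
        intro b _
        rw [C.c_mv, C.f_mv]; ring
      rw [h6]
      have h7 := (abs_le.1 h5).2
      have h8 : C.Lam * (1 / C.R * C.ρ + 1 * 1) = C.Lam * (1 + C.ρ / C.R) := by ring
      rw [h8] at h7
      simp only [A]
      linarith
    have h9 : ∑ v, (A v + A (C.mv s v)) ≤ ∑ _v : V, C.Lam * (1 + C.ρ / C.R) :=
      Finset.sum_le_sum fun v _ => h4 v
    rw [Finset.sum_add_distrib, h3, Finset.sum_const, Finset.card_univ, nsmul_eq_mul] at h9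
    have h10 : ∑ v, A v ≤ Fintype.card V * (C.Lam * (1 + C.ρ / C.R) / 2) := by linarith
    exact h10
  calc _ ≤ ∑ _s : S, Fintype.card V * (C.Lam * (1 + C.ρ / C.R) / 2) :=
        Finset.sum_le_sum fun s _ => h2 s
    _ = _ := by rw [Finset.sum_const, Finset.card_univ, nsmul_eq_mul]; ring

/-- The certificate inequality. -/
theorem main [Nonempty V] :
    C.ρ * ((1 - C.h / C.R) * Fintype.card S - C.E * (2 + Fintype.card S / C.R)
      - (1 + 2 * C.E) * (Fintype.card S / (2 * C.R))) - (1 + 2 * C.E) * (2 * C.ρ * (C.R + 2)) ≤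
    Fintype.card S * (C.Lam * (1 + C.ρ / C.R) / 2) := by
  have h1 := C.upper
  have h2 : ∑ _v : V, (C.ρ * ((1 - C.h / C.R) * Fintype.card S -
      C.E * (2 + Fintype.card S / C.R) - (1 + 2 * C.E) * (Fintype.card S / (2 * C.R))) -
      (1 + 2 * C.E) * (2 * C.ρ * (C.R + 2))) ≤
      ∑ v, ∑ b ∈ C.B, C.w v b * ∑ s, C.c v s b * C.f v s b :=
    Finset.sum_le_sum fun v _ => C.lower v
  rw [Finset.sum_const, Finset.card_univ, nsmul_eq_mul] at h2
  have h3 : (0:ℝ) < Fintype.card V := by exact_mod_cast Fintype.card_pos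
  exact le_of_mul_le_mul_left (h2.trans h1) h3

end Cert

end Vale.Agent.P090
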