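import Mathlib

set_option autoImplicit false

/-!
# Finite involution systems of large girth
-/

namespace Vale.Agent.P090

/-- The end point of the walk from `x` with colours `ss`. -/
def walk {S X : Type*} (mv : S → X → X) : List S → X → X
  | [], x => x
  | s :: ss, x => walk mv ss (mv s x)

/-- Reduced words of length at most `L`. -/
def Red (Δ L : ℕ) : Type := {l : List (Fin Δ) // l.length ≤ L ∧ l.IsChain (· ≠ ·)}

instance (Δ L : ℕ) : Finite (Red Δ L) := by
  have h : Finite {l : List (Fin Δ) // l.length ≤ L} := by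
    have := List.finite_length_le (Fin Δ) L
    exact this.to_subtype
  exact Finite.of_injective (fun r : Red Δ L => (⟨r.1, r.2.1⟩ : {l : List (Fin Δ) // l.length ≤ L}))
    (fun a b hab => Subtype.ext (by simpa using hab))

/-- Cancel the head letter if it is `s`, otherwise put `s` in front when there is room. -/
def stepFun {Δ L : ℕ} (s : Fin Δ) (r : Red Δ L) : Red Δ L :=
  if h : r.1.head? = some s then
    ⟨r.1.tail, by
      refine ⟨?_, r.2.2.tail⟩
      have := r.2.1
      rw [List.length_tail]; omega⟩
  else if h2 : r.1.length < L then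
    ⟨s :: r.1, by
      refine ⟨by simp; omega, ?_⟩
      rw [List.isChain_cons]
      refine ⟨fun y hy hs => h ?_, r.2.2⟩
      rw [hs]; exact hy⟩
  else r

lemma stepFun_invol {Δ L : ℕ} (s : Fin Δ) (r : Red Δ L) : stepFun s (stepFun s r) = r := by
  obtain ⟨l, hl, hc⟩ := r
  unfold stepFun
  cases l with
  | nil =>
    by_cases h0 : 0 < L
    · simp [h0]; rfl
    · simp [h0]; rfl
  | cons a t =>
    by_cases ha : a = s
    · subst ha
      have h1 : ¬ t.head? = some a := by
        intro h
        rw [List.isChain_cons] at hc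
        exact hc.1 a h rfl
      have h2 : t.length < L := by
        have : (a :: t).length ≤ L := hl
        simp at this; omega
      simp [h1, h2]; rfl
    · by_cases h2 : t.length + 1 < L
      · simp [ha, h2]; rfl
      · simp [ha, h2]; rfl

/-- The step as a permutation. -/
def stepPerm {Δ L : ℕ} (s : Fin Δ) : Equiv.Perm (Red Δ L) :=
  ⟨stepFun s, stepFun s, stepFun_invol s, stepFun_invol s⟩

lemma stepPerm_mul_self {Δ L : ℕ} (s : Fin Δ) : (stepPerm s : Equiv.Perm (Red Δ L)) * stepPerm s =
    1 := by
  ext1 r
  exact stepFun_invol s r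

/-- The empty word. -/
def Red.nil (Δ L : ℕ) : Red Δ L := ⟨[], by simp, List.isChain_nil⟩

lemma prod_apply_nil {Δ L : ℕ} (ss : List (Fin Δ)) (hl : ss.length ≤ L)
    (hc : ss.IsChain (· ≠ ·)) :
    ((ss.map (fun s => (stepPerm s : Equiv.Perm (Red Δ L)))).prod (Red.nil Δ L)) =
      ⟨ss, hl, hc⟩ := by
  induction ss with
  | nil => rfl
  | cons s ss ih =>
    have hl' : ss.length ≤ L := by simp at hl; omega
    have hc' : ss.IsChain (· ≠ ·) := hc.tail
    have h1 : ¬ ss.head? = some s := by
      intro h
      rw [List.isChain_cons] at hc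
      exact hc.1 s h rfl
    have h2 : ss.length < L := by simp at hl; omega
    rw [List.map_cons, List.prod_cons, Equiv.Perm.mul_apply, ih hl' hc']
    show stepFun s _ = _
    unfold stepFun
    simp [h1, h2]; rfl

lemma walk_mul {Δ L : ℕ} (ss : List (Fin Δ)) (x : Equiv.Perm (Red Δ L)) :
    walk (fun s x => x * stepPerm s) ss x =
      x * (ss.map (fun s => (stepPerm s : Equiv.Perm (Red Δ L)))).prod := by
  induction ss generalizing x with
  | nil => simp [walk]
  | cons s ss ih =>
    rw [walk, ih, List.map_cons, List.prod_cons, mul_assoc]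

lemma walk_conj {S X Y : Type*} (mv : S → X → X) (e : X ≃ Y) (ss : List S) (y : Y) :
    walk (fun s y => e (mv s (e.symm y))) ss y = e (walk mv ss (e.symm y)) := by
  induction ss generalizing y with
  | nil => simp [walk]
  | cons s ss ih =>
    rw [walk, ih, walk]; simp

/-- Finite systems of involutions of arbitrarily large girth. -/
theorem exists_girth (Δ L : ℕ) : ∃ (N : ℕ) (mv : Fin Δ → Fin N → Fin N), 0 < N ∧
    (∀ s x, mv s (mv s x) = x) ∧
    ∀ ss : List (Fin Δ), ss ≠ [] → ss.length ≤ L → ss.IsChain (· ≠ ·) → ∀ x, walk mv ss x ≠ x := by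
  classical
  have : Finite (Equiv.Perm (Red Δ L)) := inferInstance
  let e := Finite.equivFin (Equiv.Perm (Red Δ L))
  refine ⟨Nat.card (Equiv.Perm (Red Δ L)),
    fun s y => e ((fun s x => x * stepPerm s) s (e.symm y)), Nat.card_pos, ?_, ?_⟩
  · intro s x
    simp only [Equiv.symm_apply_apply, mul_assoc, stepPerm_mul_self, mul_one,
      Equiv.apply_symm_apply]
  · intro ss hne hl hc x hx
    rw [walk_conj (fun s x => x * stepPerm s) e ss x, walk_mul] at hx
    have h1 : e.symm x * (ss.map (fun s => (stepPerm s : Equiv.Perm (Red Δ L)))).prod =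
        e.symm x := by
      rw [← Equiv.apply_eq_iff_eq e, hx, Equiv.apply_symm_apply]
    have h2 : (ss.map (fun s => (stepPerm s : Equiv.Perm (Red Δ L)))).prod = 1 := by
      simpa using h1
    have h3 := prod_apply_nil ss hl hc
    rw [h2, Equiv.Perm.one_apply] at h3
    have h4 := congrArg Subtype.val h3
    exact hne h4.symm

end Vale.Agent.P090
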