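import Mathlib
import Vale.Agent.P090.Girth

set_option autoImplicit false

/-!
# A counting argument: labelings avoiding bad label words
-/

namespace Vale.Agent.P090

open Finset Function

/-- Labels along the walk from `x` with colours `ss`. -/
def labels {S X K : Type*} [Add K] (mv : S → X → X) (ψ : X → K) : List S → X → List K
  | [], _ => []
  | s :: ss, x => (ψ x + ψ (mv s x)) :: labels mv ψ ss (mv s x)

/-- Vertices of the walk from `x` with colours `ss`. -/
def verts {S X : Type*} (mv : S → X → X) : List S → X → List X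
  | [], x => [x]
  | s :: ss, x => x :: verts mv ss (mv s x)

section

variable {S X K : Type*} (mv : S → X → X)

lemma self_mem_verts (ss : List S) (x : X) : x ∈ verts mv ss x := by
  cases ss <;> simp [verts]

lemma length_verts (ss : List S) (x : X) : (verts mv ss x).length = ss.length + 1 := by
  induction ss generalizing x with
  | nil => simp [verts]
  | cons s ss ih => simp [verts, ih]

lemma exists_of_mem_verts (ss : List S) (x y : X) (h : y ∈ verts mv ss x) :
    ∃ n, n ≤ ss.length ∧ walk mv (ss.take n) x = y := by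
  induction ss generalizing x with
  | nil =>
    simp only [verts, List.mem_singleton] at h
    exact ⟨0, le_refl _, h.symm⟩
  | cons s ss ih =>
    simp only [verts, List.mem_cons] at h
    rcases h with rfl | h
    · exact ⟨0, Nat.zero_le _, rfl⟩
    · obtain ⟨n, hn, hw⟩ := ih (mv s x) h
      exact ⟨n + 1, by simpa using hn, by simpa [walk] using hw⟩

lemma nodup_verts (L : ℕ)
    (hg : ∀ ss : List S, ss ≠ [] → ss.length ≤ L → ss.IsChain (· ≠ ·) → ∀ x, walk mv ss x ≠ x)
    (ss : List S) (hl : ss.length ≤ L) (hc : ss.IsChain (· ≠ ·)) (x : X) :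
    (verts mv ss x).Nodup := by
  induction ss generalizing x with
  | nil => simp [verts]
  | cons s ss ih =>
    simp only [verts, List.nodup_cons]
    have hl' : ss.length ≤ L := by simp at hl; omega
    refine ⟨fun hx => ?_, ih hl' hc.tail _⟩
    obtain ⟨n, hn, hw⟩ := exists_of_mem_verts mv ss (mv s x) x hx
    have hc' : ((s :: ss).take (n + 1)).IsChain (· ≠ ·) := hc.take _
    refine hg ((s :: ss).take (n + 1)) (by simp) ?_ hc' x ?_
    · rw [List.length_take]; omega
    · simpa [walk] using hw

lemma walk_append (ss tt : List S) (x : X) :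
    walk mv (ss ++ tt) x = walk mv tt (walk mv ss x) := by
  induction ss generalizing x with
  | nil => rfl
  | cons s ss ih => simp [walk, ih]

lemma walk_reverse (hmv : ∀ s x, mv s (mv s x) = x) (ss : List S) (x : X) :
    walk mv ss.reverse (walk mv ss x) = x := by
  induction ss generalizing x with
  | nil => rfl
  | cons s ss ih =>
    rw [List.reverse_cons, walk_append]
    show mv s (walk mv ss.reverse (walk mv ss (mv s x))) = x
    rw [ih, hmv]

variable [DecidableEq X] [AddCommGroup K]

lemma labels_update (ψ : X → K) (x : X) (a : K) (ss : List S) (y : X)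
    (hx : x ∉ verts mv ss y) : labels mv (update ψ x a) ss y = labels mv ψ ss y := by
  induction ss generalizing y with
  | nil => rfl
  | cons s ss ih =>
    simp only [verts, List.mem_cons, not_or] at hx
    have h1 : mv s y ≠ x := by
      intro h
      exact hx.2 (h ▸ self_mem_verts mv ss _)
    rw [labels, labels, ih _ hx.2, update_of_ne (Ne.symm hx.1), update_of_ne h1]

variable [Fintype X] [Fintype K] [DecidableEq K]

omit [AddCommGroup K] [Fintype X] in
lemma card_update (x : X) (E : Finset (X → K)) (hE : ∀ ψ ∈ E, ∀ a, update ψ x a ∈ E)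
    (c : (X → K) → K) (hc : ∀ ψ a, c (update ψ x a) = c ψ) :
    (E.filter (fun ψ => ψ x = c ψ)).card * Fintype.card K ≤ E.card := by
  rw [← Finset.card_univ (α := K), ← Finset.card_product]
  apply Finset.card_le_card_of_injOn (fun q : (X → K) × K => update q.1 x q.2)
  · rintro ⟨ψ, a⟩ hq
    simp only [coe_product, Set.mem_prod, mem_coe, mem_filter] at hq
    exact hE ψ hq.1.1 a
  · rintro ⟨ψ, a⟩ hq ⟨ψ', a'⟩ hq' heq
    simp only [coe_product, Set.mem_prod, mem_coe, mem_filter] at hq hq' heq
    have ha : a = a' := by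
      have := congrFun heq x
      simpa using this
    have hcc : c ψ = c ψ' := by
      rw [← hc ψ a, ← hc ψ' a', heq]
    have hψ : ψ = ψ' := by
      funext y
      rcases eq_or_ne y x with rfl | hy
      · rw [hq.1.2, hq'.1.2, hcc]
      · have := congrFun heq y
        simpa [update_of_ne hy] using this
    rw [ha, hψ]

omit [Fintype X] in
lemma card_labels (ss : List S) (x : X) (hnd : (verts mv ss x).Nodup) (E : Finset (X → K))
    (hE : ∀ y ∈ verts mv ss x, ∀ ψ ∈ E, ∀ a, update ψ y a ∈ E) (l : List K) :
    (E.filter (fun ψ => labels mv ψ ss x = l)).card * Fintype.card K ^ ss.length ≤ E.card := by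
  induction ss generalizing x l with
  | nil => simpa using Finset.card_filter_le _ _
  | cons s ss ih =>
    simp only [verts, List.nodup_cons] at hnd
    cases l with
    | nil => simp [labels]
    | cons l1 l' =>
      have hne : mv s x ≠ x := by
        intro h
        exact hnd.1 (by rw [h]; exact self_mem_verts mv ss x)
      have h1 := ih (mv s x) hnd.2 (fun y hy => hE y (by simp [verts, hy])) l'
      have h2 := card_update x (E.filter (fun ψ => labels mv ψ ss (mv s x) = l'))
        (fun ψ hψ a => by
          rw [mem_filter] at hψ ⊢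
          exact ⟨hE x (by simp [verts]) ψ hψ.1 a, by
            rw [labels_update mv ψ x a ss _ hnd.1]; exact hψ.2⟩)
        (fun ψ => l1 - ψ (mv s x)) (fun ψ a => by simp [update_of_ne hne])
      have h3 : E.filter (fun ψ => labels mv ψ (s :: ss) x = l1 :: l') ⊆
          (E.filter (fun ψ => labels mv ψ ss (mv s x) = l')).filter
            (fun ψ => ψ x = l1 - ψ (mv s x)) := by
        intro ψ hψ
        simp only [mem_filter, labels, List.cons.injEq] at hψ ⊢
        exact ⟨⟨hψ.1, hψ.2.2⟩, by rw [← hψ.2.1]; abel⟩
      calc (E.filter (fun ψ => labels mv ψ (s :: ss) x = l1 :: l')).card *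
            Fintype.card K ^ (s :: ss).length
          ≤ ((E.filter (fun ψ => labels mv ψ ss (mv s x) = l')).filter
            (fun ψ => ψ x = l1 - ψ (mv s x))).card * Fintype.card K ^ (s :: ss).length :=
            Nat.mul_le_mul_right _ (card_le_card h3)
        _ = (((E.filter (fun ψ => labels mv ψ ss (mv s x) = l')).filter
            (fun ψ => ψ x = l1 - ψ (mv s x))).card * Fintype.card K) *
              Fintype.card K ^ ss.length := by rw [List.length_cons, pow_succ]; ring
        _ ≤ (E.filter (fun ψ => labels mv ψ ss (mv s x) = l')).card *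
              Fintype.card K ^ ss.length := Nat.mul_le_mul_right _ h2
        _ ≤ E.card := h1

/-- `ψ` avoids the bad label words on all walks inside `T`. -/
def GoodOn {S X K : Type*} [Add K] (mv : S → X → X) (L : ℕ) (Bad : List S → Finset (List K))
    (T : Finset X) (ψ : X → K) : Prop :=
  ∀ (x : X) (ss : List S), ss.length = L → ss.IsChain (· ≠ ·) →
    (∀ y ∈ verts mv ss x, y ∈ T) → labels mv ψ ss x ∉ Bad ss

omit [Fintype X] [Fintype K] [DecidableEq K] in
lemma goodOn_update (L : ℕ) (Bad : List S → Finset (List K)) (T : Finset X) (ψ : X → K) (x : X)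
    (hx : x ∉ T) (a : K) (h : GoodOn mv L Bad T ψ) : GoodOn mv L Bad T (update ψ x a) := by
  intro y ss hl hc hv
  rw [labels_update mv ψ x a ss y (fun hm => hx (hv x hm))]
  exact h y ss hl hc hv

open Classical in
/-- The number of labelings that are good on `T`. -/
noncomputable def gcount (mv : S → X → X) (L : ℕ) (Bad : List S → Finset (List K))
    (T : Finset X) : ℕ := (univ.filter (fun ψ : X → K => GoodOn mv L Bad T ψ)).card

open Classical in
lemma gcount_step [Fintype S] (hmv : ∀ s x, mv s (mv s x) = x) (L : ℕ)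
    (hg : ∀ ss : List S, ss ≠ [] → ss.length ≤ L → ss.IsChain (· ≠ ·) → ∀ x, walk mv ss x ≠ x)
    (Bad : List S → Finset (List K)) (β : ℕ) (hBad : ∀ ss, ss.length = L → (Bad ss).card ≤ β)
    (hβ : 2 * ((L + 1) * Fintype.card S ^ L * (β * 2 ^ L)) ≤ Fintype.card K ^ L)
    (T : Finset X) (v : X) (hv : v ∉ T)
    (hT : ∀ T' ⊆ T, gcount mv L Bad T' ≤ 2 ^ (T \ T').card * gcount mv L Bad T) :
    gcount mv L Bad T ≤ 2 * gcount mv L Bad (insert v T) := by
  set k := Fintype.card K with hk
  have hk0 : 0 < k := Fintype.card_pos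
  set G : Finset (X → K) := univ.filter (fun ψ : X → K => GoodOn mv L Bad T ψ) with hG
  set G' : Finset (X → K) := univ.filter (fun ψ : X → K => GoodOn mv L Bad (insert v T) ψ)
    with hG'
  -- starting points
  let st : (Fin L → S) × Fin (L + 1) → X := fun q =>
    walk mv ((List.ofFn q.1).take q.2).reverse v
  let P : (Fin L → S) × Fin (L + 1) → Finset X := fun q =>
    (verts mv (List.ofFn q.1) (st q)).toFinset
  let Ev : (Fin L → S) × Fin (L + 1) → Finset (X → K) := fun q =>
    if (List.ofFn q.1).IsChain (· ≠ ·) ∧ v ∈ P q then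
      (univ.filter (fun ψ : X → K => GoodOn mv L Bad (T \ P q) ψ)).filter
        (fun ψ => labels mv ψ (List.ofFn q.1) (st q) ∈ Bad (List.ofFn q.1))
    else ∅
  have hsub : G \ G' ⊆ univ.biUnion Ev := by
    intro ψ hψ
    simp only [hG, hG', mem_sdiff, mem_filter, mem_univ, true_and] at hψ
    obtain ⟨h1, h2⟩ := hψ
    unfold GoodOn at h2
    push Not at h2
    obtain ⟨x, ss, hl, hc, hvs, hb⟩ := h2
    have hvm : v ∈ verts mv ss x := by
      by_contra hvm
      refine h1 x ss hl hc (fun y hy => ?_) hb
      rcases mem_insert.1 (hvs y hy) with rfl | h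
      · exact absurd hy hvm
      · exact h
    obtain ⟨n, hn, hw⟩ := exists_of_mem_verts mv ss x v hvm
    have hofn : List.ofFn (fun i : Fin L => ss.get (i.cast hl.symm)) = ss := by
      subst hl
      exact List.ofFn_get ss
    rw [mem_biUnion]
    refine ⟨(fun i : Fin L => ss.get (i.cast hl.symm), ⟨n, by omega⟩), mem_univ _, ?_⟩
    have hst : st (fun i : Fin L => ss.get (i.cast hl.symm), ⟨n, by omega⟩) = x := by
      simp only [st]
      rw [hofn, ← hw]
      exact walk_reverse mv hmv _ x
    have hPv : v ∈ P (fun i : Fin L => ss.get (i.cast hl.symm), ⟨n, by omega⟩) := by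
      simp only [P, hst]
      rw [List.mem_toFinset, hofn]
      exact hvm
    simp only [Ev]
    rw [if_pos ⟨by rw [hofn]; exact hc, hPv⟩]
    simp only [mem_filter, mem_univ, true_and, hst]
    rw [hofn]
    refine ⟨fun y tt hl' hc' hv' => h1 y tt hl' hc' fun z hz => (mem_sdiff.1 (hv' z hz)).1, hb⟩
  have hEv : ∀ q, (Ev q).card * k ^ L ≤ β * 2 ^ L * G.card := by
    intro q
    simp only [Ev]
    split_ifs with hq
    · obtain ⟨hc, hvP⟩ := hq
      set ss := List.ofFn q.1 with hss
      have hl : ss.length = L := by simp [hss]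
      have hnd : (verts mv ss (st q)).Nodup := nodup_verts mv L hg ss hl.le hc _
      set E := univ.filter (fun ψ : X → K => GoodOn mv L Bad (T \ P q) ψ) with hE
      have hinv : ∀ y ∈ verts mv ss (st q), ∀ ψ ∈ E, ∀ a, update ψ y a ∈ E := by
        intro y hy ψ hψ a
        simp only [hE, mem_filter, mem_univ, true_and] at hψ ⊢
        refine goodOn_update mv L Bad _ ψ y ?_ a hψ
        intro hy'
        exact (mem_sdiff.1 hy').2 (List.mem_toFinset.2 hy)
      have h1 : E.filter (fun ψ => labels mv ψ ss (st q) ∈ Bad ss) ⊆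
          (Bad ss).biUnion (fun l => E.filter (fun ψ => labels mv ψ ss (st q) = l)) := by
        intro ψ hψ
        simp only [mem_filter, mem_biUnion] at hψ ⊢
        exact ⟨_, hψ.2, hψ.1, rfl⟩
      have h2 : (E.filter (fun ψ => labels mv ψ ss (st q) ∈ Bad ss)).card * k ^ L ≤
          β * E.card := by
        calc _ ≤ (∑ l ∈ Bad ss, (E.filter (fun ψ => labels mv ψ ss (st q) = l)).card) * k ^ L :=
              Nat.mul_le_mul_right _ ((card_le_card h1).trans card_biUnion_le)
          _ = ∑ l ∈ Bad ss, (E.filter (fun ψ => labels mv ψ ss (st q) = l)).card * k ^ L :=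
              Finset.sum_mul _ _ _
          _ ≤ ∑ l ∈ Bad ss, E.card := by
              apply Finset.sum_le_sum
              intro l _
              have := card_labels mv ss (st q) hnd E hinv l
              rw [hl] at this
              exact this
          _ = (Bad ss).card * E.card := by rw [sum_const, smul_eq_mul]
          _ ≤ β * E.card := Nat.mul_le_mul_right _ (hBad ss hl)
      have h3 : E.card ≤ 2 ^ L * G.card := by
        have h4 := hT (T \ P q) sdiff_subset
        have h5 : (T \ (T \ P q)).card ≤ L := by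
          have h6 : T \ (T \ P q) ⊆ (P q).erase v := by
            intro y hy
            simp only [mem_sdiff, not_and, not_not] at hy
            rw [mem_erase]
            exact ⟨fun h => hv (h ▸ hy.1), hy.2 hy.1⟩
          have h7 := card_le_card h6
          rw [card_erase_of_mem hvP] at h7
          have h8 : (P q).card ≤ L + 1 := by
            have := List.toFinset_card_le (verts mv ss (st q))
            rw [length_verts, hl] at this
            exact this
          omega
        calc E.card ≤ 2 ^ (T \ (T \ P q)).card * G.card := h4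
          _ ≤ 2 ^ L * G.card := Nat.mul_le_mul_right _ (Nat.pow_le_pow_right (by norm_num) h5)
      calc _ ≤ β * E.card := h2
        _ ≤ β * (2 ^ L * G.card) := Nat.mul_le_mul_left _ h3
        _ = β * 2 ^ L * G.card := by ring
    · simp
  have hsum : (G \ G').card * k ^ L ≤
      ((L + 1) * Fintype.card S ^ L * (β * 2 ^ L)) * G.card := by
    calc (G \ G').card * k ^ L ≤ (∑ q, (Ev q).card) * k ^ L :=
          Nat.mul_le_mul_right _ ((card_le_card hsub).trans card_biUnion_le)
      _ = ∑ q, (Ev q).card * k ^ L := Finset.sum_mul _ _ _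
      _ ≤ ∑ _q : (Fin L → S) × Fin (L + 1), β * 2 ^ L * G.card :=
          Finset.sum_le_sum fun q _ => hEv q
      _ = ((L + 1) * Fintype.card S ^ L * (β * 2 ^ L)) * G.card := by
          rw [sum_const, card_univ, Fintype.card_prod, Fintype.card_fun, Fintype.card_fin,
            Fintype.card_fin, smul_eq_mul]
          ring
  have hGG : G.card ≤ (G \ G').card + G'.card := by
    have := card_le_card_sdiff_add_card (s := G) (t := G')
    omega
  have hkL : 0 < k ^ L := Nat.pow_pos hk0
  have hfin : 2 * (G \ G').card ≤ G.card := by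
    have h1 : (2 * (G \ G').card) * k ^ L ≤ G.card * k ^ L := by
      calc (2 * (G \ G').card) * k ^ L = 2 * ((G \ G').card * k ^ L) := by ring
        _ ≤ 2 * (((L + 1) * Fintype.card S ^ L * (β * 2 ^ L)) * G.card) :=
            Nat.mul_le_mul_left _ hsum
        _ = (2 * ((L + 1) * Fintype.card S ^ L * (β * 2 ^ L))) * G.card := by ring
        _ ≤ k ^ L * G.card := Nat.mul_le_mul_right _ hβ
        _ = G.card * k ^ L := Nat.mul_comm _ _
    exact Nat.le_of_mul_le_mul_right h1 hkL
  show G.card ≤ 2 * G'.card
  omega

open Classical in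
lemma gcount_all [Fintype S] (hmv : ∀ s x, mv s (mv s x) = x) (L : ℕ)
    (hg : ∀ ss : List S, ss ≠ [] → ss.length ≤ L → ss.IsChain (· ≠ ·) → ∀ x, walk mv ss x ≠ x)
    (Bad : List S → Finset (List K)) (β : ℕ) (hBad : ∀ ss, ss.length = L → (Bad ss).card ≤ β)
    (hβ : 2 * ((L + 1) * Fintype.card S ^ L * (β * 2 ^ L)) ≤ Fintype.card K ^ L) (n : ℕ) :
    ∀ T : Finset X, T.card = n → ∀ T' ⊆ T,
      gcount mv L Bad T' ≤ 2 ^ (T \ T').card * gcount mv L Bad T := by
  induction n with
  | zero =>
    intro T hT T' hT'
    have : T = ∅ := card_eq_zero.1 hT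
    subst this
    have : T' = ∅ := subset_empty.1 hT'
    subst this
    simp
  | succ n ih =>
    intro T hT T' hT'
    by_cases hne : T' = T
    · subst hne; simp
    · obtain ⟨v, hvT, hvT'⟩ := exists_of_ssubset (_root_.ssubset_iff_subset_ne.2 ⟨hT', hne⟩)
      have hc : (T.erase v).card = n := by rw [card_erase_of_mem hvT, hT]; rfl
      have h1 := gcount_step mv hmv L hg Bad β hBad hβ (T.erase v) v (notMem_erase v T)
        (ih _ hc)
      rw [insert_erase hvT] at h1
      have hsub : T' ⊆ T.erase v := fun y hy => mem_erase.2 ⟨fun h => hvT' (h ▸ hy), hT' hy⟩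
      have h2 := ih (T.erase v) hc T' hsub
      have h3 : (T \ T').card = (T.erase v \ T').card + 1 := by
        have : T \ T' = insert v (T.erase v \ T') := by
          ext y
          simp only [mem_sdiff, mem_insert, mem_erase]
          constructor
          · rintro ⟨h, h'⟩
            by_cases hy : y = v
            · exact Or.inl hy
            · exact Or.inr ⟨⟨hy, h⟩, h'⟩
          · rintro (rfl | ⟨⟨_, h⟩, h'⟩)
            · exact ⟨hvT, hvT'⟩
            · exact ⟨h, h'⟩
        rw [this, card_insert_of_notMem (by simp)]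
      rw [h3, pow_succ]
      calc gcount mv L Bad T' ≤ 2 ^ (T.erase v \ T').card * gcount mv L Bad (T.erase v) := h2
        _ ≤ 2 ^ (T.erase v \ T').card * (2 * gcount mv L Bad T) := Nat.mul_le_mul_left _ h1
        _ = _ := by ring

/-- Existence of a labeling avoiding the bad label words on all walks of length `L`. -/
theorem exists_labeling [Fintype S] (hmv : ∀ s x, mv s (mv s x) = x) (L : ℕ)
    (hg : ∀ ss : List S, ss ≠ [] → ss.length ≤ L → ss.IsChain (· ≠ ·) → ∀ x, walk mv ss x ≠ x)
    (Bad : List S → Finset (List K)) (β : ℕ) (hBad : ∀ ss, ss.length = L → (Bad ss).card ≤ β)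
    (hβ : 2 * ((L + 1) * Fintype.card S ^ L * (β * 2 ^ L)) ≤ Fintype.card K ^ L) :
    ∃ ψ : X → K, ∀ (x : X) (ss : List S), ss.length = L → ss.IsChain (· ≠ ·) →
      labels mv ψ ss x ∉ Bad ss := by
  classical
  have h := gcount_all mv hmv L hg Bad β hBad hβ _ univ rfl ∅ (empty_subset _)
  have h1 : 0 < gcount mv L Bad ∅ := by
    unfold gcount
    rw [card_pos]
    refine ⟨0, ?_⟩
    rw [mem_filter]
    refine ⟨mem_univ _, fun x ss _ _ hv => ?_⟩
    exact absurd (hv x (self_mem_verts mv ss x)) (notMem_empty _)
  have h2 : 0 < gcount mv L Bad univ := by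
    by_contra h0
    have : gcount mv L Bad univ = 0 := by omega
    rw [this, mul_zero] at h
    omega
  unfold gcount at h2
  rw [card_pos] at h2
  obtain ⟨ψ, hψ⟩ := h2
  rw [mem_filter] at hψ
  exact ⟨ψ, fun x ss hl hc => hψ.2 x ss hl hc fun y _ => mem_univ _⟩

end

end Vale.Agent.P090
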