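import Mathlib

set_option autoImplicit false

/-!
# Tracking paths and dominating colours
-/

namespace Vale.Agent.P090

/-- `Track B mv rel ss v b`: the state `(v, b)` admits a tracking path with colours `ss`. -/
def Track {M V S : Type*} (B : Finset M) (mv : S → V → V) (rel : S → V → M → M → Prop) :
    List S → V → M → Prop
  | [], _, _ => True
  | s :: ss, v, b => ∃ b' ∈ B, rel s v b b' ∧ Track B mv rel ss (mv s v) b'

/-- There is a non-backtracking tracking path of length `n` from `(v, b)` whose first colour, if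
any, is `s`. -/
def HasPath {M V S : Type*} (B : Finset M) (mv : S → V → V) (rel : S → V → M → M → Prop)
    (s : S) (v : V) (b : M) (n : ℕ) : Prop :=
  ∃ ss : List S, ss.IsChain (· ≠ ·) ∧ ss.length = n ∧ (∀ x ∈ ss.head?, x = s) ∧
    Track B mv rel ss v b

theorem exists_dominating {M V S : Type*} (B : Finset M) (mv : S → V → V)
    (rel : S → V → M → M → Prop) (hmv : ∀ s v, mv s (mv s v) = v)
    (hrel : ∀ s v b b', rel s v b b' → rel s (mv s v) b' b) (L : ℕ)
    (hL : ∀ ss : List S, ss.IsChain (· ≠ ·) → ss.length = L → ∀ v, ∀ b ∈ B,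
      ¬ Track B mv rel ss v b) :
    ∃ D : V → S → M → Prop, (∀ v b s s', D v s b → D v s' b → s = s') ∧
      ∀ v s, ∀ b ∈ B, ∀ b' ∈ B, rel s v b b' → D v s b ∨ D (mv s v) s b' := by
  classical
  let H : S → V → M → ℕ := fun s v b => Nat.findGreatest (HasPath B mv rel s v b) L
  have hH0 : ∀ s v b, HasPath B mv rel s v b 0 := fun s v b =>
    ⟨[], List.isChain_nil, rfl, by simp, trivial⟩
  have hH : ∀ s v b, HasPath B mv rel s v b (H s v b) := fun s v b =>
    Nat.findGreatest_spec (P := HasPath B mv rel s v b) (Nat.zero_le L) (hH0 s v b)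
  have hHL : ∀ s v b, b ∈ B → H s v b < L := by
    intro s v b hb
    refine lt_of_le_of_ne (Nat.findGreatest_le L) ?_
    intro heq
    obtain ⟨ss, h1, h2, _, h4⟩ := hH s v b
    exact hL ss h1 (h2.trans heq) v b hb h4
  have key : ∀ s v b b', b' ∈ B → rel s v b b' → ∀ s', s' ≠ s →
      H s' (mv s v) b' + 1 ≤ H s v b := by
    intro s v b b' hb' hr s' hs'
    obtain ⟨ss, h1, h2, h3, h4⟩ := hH s' (mv s v) b'
    apply Nat.le_findGreatest (hHL s' (mv s v) b' hb')
    refine ⟨s :: ss, ?_, by simp [h2], by simp, b', hb', hr, h4⟩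
    rw [List.isChain_cons]
    refine ⟨fun y hy => ?_, h1⟩
    rw [h3 y hy]
    exact hs'.symm
  refine ⟨fun v s b => ∀ s', s' ≠ s → H s' v b < H s v b, ?_, ?_⟩
  · intro v b s s' h1 h2
    by_contra hne
    exact absurd (h1 s' (Ne.symm hne)) (not_lt.2 (h2 s hne).le)
  · intro v s b hb b' hb' hr
    by_cases hD : ∀ s', s' ≠ s → H s' v b < H s v b
    · exact Or.inl hD
    · right
      push Not at hD
      obtain ⟨s', hs', hle⟩ := hD
      intro s'' hs''
      have h1 := key s v b b' hb' hr s'' hs''
      have hr' := hrel s v b b' hr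
      have h2 := key s (mv s v) b' b hb hr' s' hs'
      rw [hmv] at h2
      omega

end Vale.Agent.P090
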