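import Mathlib
import Vale.Agent.P090.Count
import Vale.Agent.P090.Height

set_option autoImplicit false

/-!
# The building blocks of the counterexample
-/

namespace Vale.Agent.P090

open Finset Function

/-- Parameters: number of colours, number of labels minus one, and the distance scale. -/
structure Params where
  Δ : ℕ
  k : ℕ
  m : ℕ

/-- Colours. -/
abbrev Params.S (P : Params) : Type := Fin P.Δ

/-- Labels. -/
abbrev Params.K (P : Params) : Type := Fin (P.k + 1)

/-- Directions: pairs of a colour and a label. -/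
abbrev Params.Dir (P : Params) : Type := P.S × P.K

/-- A finite labelled graph: colours act by involutions, vertices carry labels. -/
structure Comp (P : Params) where
  N : ℕ
  mv : P.S → Fin N → Fin N
  inv : ∀ s x, mv s (mv s x) = x
  psi : Fin N → P.K

/-- Vertices of the component. -/
abbrev Comp.V {P : Params} (c : Comp P) : Type := Fin c.N × (P.Dir → Bool)

/-- The space: hubs and components. -/
def Sp (P : Params) : Type := (P.Dir → Bool) ⊕ (Σ c : Comp P, c.V)

namespace Comp

variable {P : Params} (c : Comp P)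

/-- The direction label of the `s`-edge at `x`. -/
def lab (x : Fin c.N) (s : P.S) : P.K := c.psi x + c.psi (c.mv s x)

lemma lab_mv (x : Fin c.N) (s : P.S) : c.lab (c.mv s x) s = c.lab x s := by
  unfold lab; rw [c.inv, add_comm]

/-- The `s`-move on the vertices of the component. -/
def move (s : P.S) (v : c.V) : c.V :=
  (c.mv s v.1, update v.2 (s, c.lab v.1 s) (!v.2 (s, c.lab v.1 s)))

lemma move_move (s : P.S) (v : c.V) : c.move s (c.move s v) = v := by
  obtain ⟨x, g⟩ := v
  unfold move
  simp only [c.inv, c.lab_mv, update_self, Bool.not_not, update_idem, update_eq_self]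

end Comp

namespace Sp

variable {P : Params}

/-- A hub. -/
def hub (g : P.Dir → Bool) : Sp P := Sum.inl g

/-- A vertex of a component. -/
def pt (c : Comp P) (v : c.V) : Sp P := Sum.inr ⟨c, v⟩

/-- The sign vector of a point. -/
def proj : Sp P → P.Dir → Bool
  | Sum.inl g => g
  | Sum.inr ⟨_, v⟩ => v.2

/-- The action of a colour. -/
def act (s : P.S) : Sp P → Sp P
  | Sum.inl g => Sum.inl g
  | Sum.inr ⟨c, v⟩ => Sum.inr ⟨c, c.move s v⟩

/-- The label of the `s`-edge at a point. -/
def lab : Sp P → P.S → P.K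
  | Sum.inl _ => fun _ => 0
  | Sum.inr ⟨c, v⟩ => fun s => c.lab v.1 s

@[simp] lemma proj_hub (g : P.Dir → Bool) : proj (hub g) = g := rfl
@[simp] lemma proj_pt (c : Comp P) (v : c.V) : proj (pt c v) = v.2 := rfl
@[simp] lemma act_hub (s : P.S) (g : P.Dir → Bool) : act s (hub g) = hub g := rfl
@[simp] lemma act_pt (s : P.S) (c : Comp P) (v : c.V) : act s (pt c v) = pt c (c.move s v) := rfl
@[simp] lemma lab_pt (c : Comp P) (v : c.V) (s : P.S) : lab (pt c v) s = c.lab v.1 s := rfl

lemma act_act (s : P.S) (z : Sp P) : act s (act s z) = z := by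
  rcases z with g | ⟨c, v⟩
  · rfl
  · exact congrArg (fun w => pt c w) (c.move_move s v)

lemma proj_act_ne (s : P.S) (z : Sp P) (i : P.Dir) (h : proj (act s z) i ≠ proj z i) :
    i = (s, lab z s) := by
  rcases z with g | ⟨c, v⟩
  · exact absurd rfl h
  · by_contra hne
    apply h
    show (c.move s v).2 i = v.2 i
    exact update_of_ne hne _ _

/-- Admissible test functions. -/
def Adm (P : Params) (f : Sp P → ℝ) : Prop :=
  (∀ s z, |f (act s z) - f z| ≤ 1) ∧ (∀ z, |f z - f (hub (proj z))| ≤ P.m + 1) ∧
    (∀ z, |f z| ≤ P.m + P.Δ + 1)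

/-- The distance: supremum over admissible test functions. -/
noncomputable def dst (x y : Sp P) : ℝ := ⨆ f : {f : Sp P → ℝ // Adm P f}, |f.1 x - f.1 y|

lemma bdd (x y : Sp P) :
    BddAbove (Set.range fun f : {f : Sp P → ℝ // Adm P f} => |f.1 x - f.1 y|) := by
  refine ⟨2 * (P.m + P.Δ + 1), ?_⟩
  rintro _ ⟨f, rfl⟩
  have h1 := f.2.2.2 x
  have h2 := f.2.2.2 y
  have := abs_sub (f.1 x) (f.1 y)
  show |f.1 x - f.1 y| ≤ _
  linarith

lemma le_dst {f : Sp P → ℝ} (hf : Adm P f) (x y : Sp P) : |f x - f y| ≤ dst x y :=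
  le_ciSup (bdd x y) ⟨f, hf⟩

lemma adm_zero : Adm P (fun _ => 0) := by
  refine ⟨fun s z => by simp, fun z => ?_, fun z => ?_⟩
  · simp; positivity
  · simp; positivity

instance : Nonempty {f : Sp P → ℝ // Adm P f} := ⟨⟨_, adm_zero⟩⟩

lemma dst_le {x y : Sp P} {C : ℝ} (h : ∀ f : Sp P → ℝ, Adm P f → |f x - f y| ≤ C) :
    dst x y ≤ C := ciSup_le fun f => h f.1 f.2

open Classical in
lemma adm_ind (x : Sp P) : Adm P (fun z => if z = x then 1 else 0) := by
  have h : ∀ z w : Sp P, |(if z = x then (1:ℝ) else 0) - (if w = x then 1 else 0)| ≤ 1 := by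
    intro z w
    split_ifs <;> norm_num
  refine ⟨fun s z => h _ _, fun z => (h _ _).trans ?_, fun z => ?_⟩
  · have : (0:ℝ) ≤ P.m := by positivity
    linarith
  · have h1 : (0:ℝ) ≤ P.m + P.Δ := by positivity
    have h2 : |(if z = x then (1:ℝ) else 0)| ≤ 1 := by split_ifs <;> norm_num
    linarith

lemma one_le_dst {x y : Sp P} (h : x ≠ y) : 1 ≤ dst x y := by
  classical
  have := le_dst (adm_ind x) x y
  simpa [h, Ne.symm h] using this

noncomputable instance : MetricSpace (Sp P) where
  dist := dst
  dist_self x := le_antisymm (dst_le fun f _ => by simp) (by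
    have := le_dst (adm_zero (P := P)) x x
    simpa using this)
  dist_comm x y := by
    show dst x y = dst y x
    unfold dst
    congr 1
    funext f
    exact abs_sub_comm _ _
  dist_triangle x y z := by
    apply dst_le
    intro f hf
    exact (abs_sub_le _ (f y) _).trans (add_le_add (le_dst hf x y) (le_dst hf y z))
  eq_of_dist_eq_zero {x y} h := by
    by_contra hne
    have := one_le_dst hne
    have h' : dst x y = 0 := h
    linarith

lemma dist_def (x y : Sp P) : dist x y = dst x y := rfl

lemma le_dist {f : Sp P → ℝ} (hf : Adm P f) (x y : Sp P) : |f x - f y| ≤ dist x y := le_dst hf x y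

lemma one_le_dist {x y : Sp P} (h : x ≠ y) : 1 ≤ dist x y := one_le_dst h

lemma dist_act (s : P.S) (z : Sp P) : dist z (act s z) ≤ 1 := by
  apply dst_le
  intro f hf
  rw [abs_sub_comm]; exact hf.1 s z

lemma dist_hub (z : Sp P) : dist z (hub (proj z)) ≤ P.m + 1 := dst_le fun _ hf => hf.2.1 z

/-- Number of colours at which the sign of `z` along the chosen labels differs from `g`. -/
def cnt (l : P.S → P.K) (g : P.S → Bool) (z : Sp P) : ℕ :=
  (univ.filter (fun s => ¬ proj z (s, l s) = g s)).card

lemma cnt_act_le (l : P.S → P.K) (g : P.S → Bool) (s : P.S) (z : Sp P) :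
    cnt l g (act s z) ≤ cnt l g z + 1 := by
  have h : (univ.filter (fun s' => ¬ proj (act s z) (s', l s') = g s')) ⊆
      insert s (univ.filter (fun s' => ¬ proj z (s', l s') = g s')) := by
    intro s' hs'
    rw [mem_insert]
    by_cases he : s' = s
    · exact Or.inl he
    · right
      simp only [mem_filter, mem_univ, true_and] at hs' ⊢
      have : proj (act s z) (s', l s') = proj z (s', l s') := by
        by_contra hne
        have := proj_act_ne s z _ hne
        exact he (congrArg Prod.fst this)
      rwa [this] at hs'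
  exact (card_le_card h).trans (card_insert_le _ _)

lemma adm_cnt (l : P.S → P.K) (g : P.S → Bool) : Adm P (fun z => (cnt l g z : ℝ)) := by
  refine ⟨fun s z => ?_, fun z => ?_, fun z => ?_⟩
  · have h1 := cnt_act_le l g s z
    have h2 := cnt_act_le l g s (act s z)
    rw [act_act] at h2
    have h1' : (cnt l g (act s z) : ℝ) ≤ cnt l g z + 1 := by exact_mod_cast h1
    have h2' : (cnt l g z : ℝ) ≤ cnt l g (act s z) + 1 := by exact_mod_cast h2
    rw [abs_le]; constructor <;> linarith
  · have : cnt l g (hub (proj z)) = cnt l g z := rfl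
    show |((cnt l g z : ℕ) : ℝ) - (cnt l g (hub (proj z)) : ℕ)| ≤ _
    rw [this]; simp; positivity
  · have h1 : cnt l g z ≤ P.Δ := by
      have := card_filter_le (univ : Finset P.S) (fun s => ¬ proj z (s, l s) = g s)
      rw [card_univ, Fintype.card_fin] at this
      exact this
    have h2 : (cnt l g z : ℝ) ≤ P.Δ := by exact_mod_cast h1
    rw [abs_of_nonneg (by positivity)]
    have : (0:ℝ) ≤ P.m := by positivity
    linarith

lemma cnt_lip (l : P.S → P.K) (g : P.S → Bool) (x y : Sp P) :
    |(cnt l g x : ℝ) - cnt l g y| ≤ dist x y := le_dist (adm_cnt l g) x y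

open Classical in
/-- Points reachable from `x` in at most `n` moves. -/
noncomputable def reach (x : Sp P) : ℕ → Finset (Sp P)
  | 0 => {x}
  | n + 1 => reach x n ∪ (univ : Finset P.S).biUnion fun s => (reach x n).image (act s)

lemma self_mem_reach (x : Sp P) (n : ℕ) : x ∈ reach x n := by
  classical
  induction n with
  | zero => simp [reach]
  | succ n ih => simp [reach, ih]

lemma act_mem_reach {x z : Sp P} {n : ℕ} (s : P.S) (h : z ∈ reach x n) :
    act s z ∈ reach x (n + 1) := by
  classical
  simp only [reach, mem_union, mem_biUnion, mem_univ, true_and, mem_image]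
  exact Or.inr ⟨s, z, h, rfl⟩

lemma reach_mono {x : Sp P} {n n' : ℕ} (h : n ≤ n') : reach x n ⊆ reach x n' := by
  classical
  induction h with
  | refl => exact subset_refl _
  | step _ ih => exact ih.trans (by rw [reach]; exact subset_union_left)

lemma card_reach_le (x : Sp P) (n : ℕ) : (reach x n).card ≤ (1 + P.Δ) ^ n := by
  classical
  induction n with
  | zero => simp [reach]
  | succ n ih =>
    rw [reach]
    calc _ ≤ (reach x n).card + ((univ : Finset P.S).biUnion fun s =>
          (reach x n).image (act s)).card := card_union_le _ _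
      _ ≤ (reach x n).card + ∑ s : P.S, ((reach x n).image (act s)).card := by
          gcongr; exact card_biUnion_le
      _ ≤ (reach x n).card + ∑ _s : P.S, (reach x n).card :=
          Nat.add_le_add_left (Finset.sum_le_sum fun s _ => card_image_le) _
      _ = (1 + P.Δ) * (reach x n).card := by
          rw [sum_const, card_univ, Fintype.card_fin, smul_eq_mul]; ring
      _ ≤ (1 + P.Δ) * (1 + P.Δ) ^ n := by gcongr
      _ = (1 + P.Δ) ^ (n + 1) := by rw [pow_succ]; ring

open Classical in
/-- Truncated graph distance from `x`. -/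
noncomputable def gd (x z : Sp P) : ℕ := ((range P.m).filter (fun n => z ∉ reach x n)).card

lemma gd_act_le (x z : Sp P) (s : P.S) : gd x (act s z) ≤ gd x z + 1 := by
  classical
  have h : ((range P.m).filter (fun n => act s z ∉ reach x n)) ⊆
      insert 0 (((range P.m).filter (fun n => z ∉ reach x n)).image (· + 1)) := by
    intro n hn
    rw [mem_insert]
    rcases n with _ | n
    · exact Or.inl rfl
    · right
      simp only [mem_filter, mem_range, mem_image] at hn ⊢
      exact ⟨n, ⟨by omega, fun hz => hn.2 (act_mem_reach s hz)⟩, rfl⟩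
  calc gd x (act s z) ≤ _ := card_le_card h
    _ ≤ (((range P.m).filter (fun n => z ∉ reach x n)).image (· + 1)).card + 1 :=
        card_insert_le _ _
    _ ≤ gd x z + 1 := Nat.add_le_add_right card_image_le _

lemma gd_le (x z : Sp P) : gd x z ≤ P.m := by
  classical
  have := card_filter_le (range P.m) (fun n => z ∉ reach x n)
  rw [card_range] at this
  exact this

lemma gd_self (x : Sp P) : gd x x = 0 := by
  classical
  unfold gd
  rw [card_eq_zero, filter_eq_empty_iff]
  intro n _
  simp [self_mem_reach]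

lemma adm_gd (x : Sp P) : Adm P (fun z => (gd x z : ℝ)) := by
  have hb : ∀ z, (gd x z : ℝ) ≤ P.m := fun z => by exact_mod_cast gd_le x z
  have hb0 : ∀ z, (0:ℝ) ≤ gd x z := fun z => by positivity
  refine ⟨fun s z => ?_, fun z => ?_, fun z => ?_⟩
  · have h1 := gd_act_le x z s
    have h2 := gd_act_le x (act s z) s
    rw [act_act] at h2
    have h1' : (gd x (act s z) : ℝ) ≤ gd x z + 1 := by exact_mod_cast h1
    have h2' : (gd x z : ℝ) ≤ gd x (act s z) + 1 := by exact_mod_cast h2
    rw [abs_le]; constructor <;> linarith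
  · rw [abs_le]
    constructor <;> linarith [hb z, hb (hub (proj z)), hb0 z, hb0 (hub (proj z))]
  · rw [abs_of_nonneg (hb0 z)]
    have : (0:ℝ) ≤ P.Δ := by positivity
    linarith [hb z]

lemma mem_reach_of_dist_lt {x y : Sp P} (h : dist x y < P.m) : y ∈ reach x P.m := by
  classical
  have h1 := le_dist (adm_gd x) x y
  rw [gd_self] at h1
  have h2 : (gd x y : ℝ) < P.m := by
    have := neg_le_abs ((0:ℕ) - (gd x y : ℝ))
    push_cast at this h1
    linarith
  have h3 : gd x y < P.m := by exact_mod_cast h2
  by_contra hy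
  have h4 : gd x y = P.m := by
    unfold gd
    rw [filter_true_of_mem, card_range]
    intro n hn hy'
    exact hy (reach_mono (mem_range.1 hn).le hy')
  omega

open Classical in
/-- Labels seen in the ball around `x`. -/
noncomputable def labs (x : Sp P) : Finset P.K :=
  (reach x P.m).biUnion fun z => univ.image (lab z)

lemma card_labs_le (x : Sp P) : (labs x).card ≤ (1 + P.Δ) ^ P.m * P.Δ := by
  classical
  calc (labs x).card ≤ ∑ z ∈ reach x P.m, (univ.image (lab z)).card := card_biUnion_le
    _ ≤ ∑ _z ∈ reach x P.m, P.Δ := by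
        gcongr with z _
        have := card_image_le (s := (univ : Finset P.S)) (f := lab z)
        simpa using this
    _ = (reach x P.m).card * P.Δ := by rw [sum_const, smul_eq_mul]
    _ ≤ (1 + P.Δ) ^ P.m * P.Δ := Nat.mul_le_mul_right _ (card_reach_le x _)

lemma mem_labs {x y : Sp P} {n : ℕ} (hn : n ≤ P.m) (hy : y ∈ reach x n) {s : P.S} {l : P.K}
    (h : proj y (s, l) ≠ proj x (s, l)) : l ∈ labs x := by
  classical
  induction n generalizing y with
  | zero =>
    simp only [reach, mem_singleton] at hy
    subst hy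
    exact absurd rfl h
  | succ n ih =>
    simp only [reach, mem_union, mem_biUnion, mem_univ, true_and, mem_image] at hy
    rcases hy with hy | ⟨s', z, hz, rfl⟩
    · exact ih (by omega) hy h
    · by_cases he : proj z (s, l) = proj x (s, l)
      · rw [← he] at h
        have h1 := proj_act_ne s' z _ h
        have h2 : l = lab z s' := congrArg Prod.snd h1
        rw [h2]
        unfold labs
        rw [mem_biUnion]
        exact ⟨z, reach_mono (by omega) hz, mem_image_of_mem _ (mem_univ _)⟩
      · exact ih (by omega) hz he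

open Classical in
/-- Label words that can be tracked from `b`. -/
noncomputable def words : List P.S → Sp P → Finset (List P.K)
  | [], _ => {[]}
  | _ :: ss, b => (reach b P.m ×ˢ labs b).biUnion fun q => (words ss q.1).image (List.cons q.2)

/-- Branching constant. -/
def br (P : Params) : ℕ := (1 + P.Δ) ^ P.m * ((1 + P.Δ) ^ P.m * P.Δ)

lemma card_words_le (ss : List P.S) (b : Sp P) : (words ss b).card ≤ br P ^ ss.length := by
  classical
  induction ss generalizing b with
  | nil => simp [words]
  | cons s ss ih =>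
    rw [words]
    calc _ ≤ ∑ q ∈ reach b P.m ×ˢ labs b, ((words ss q.1).image (List.cons q.2)).card :=
          card_biUnion_le
      _ ≤ ∑ _q ∈ reach b P.m ×ˢ labs b, br P ^ ss.length := by
          gcongr with q _
          exact card_image_le.trans (ih _)
      _ = ((reach b P.m).card * (labs b).card) * br P ^ ss.length := by
          rw [sum_const, smul_eq_mul, card_product]
      _ ≤ br P * br P ^ ss.length := by
          apply Nat.mul_le_mul_right
          exact Nat.mul_le_mul (card_reach_le _ _) (card_labs_le _)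
      _ = br P ^ (s :: ss).length := by rw [List.length_cons, pow_succ]; ring

/-- The tracking relation. -/
def rel (c : Comp P) (s : P.S) (v : c.V) (b b' : Sp P) : Prop :=
  proj b (s, c.lab v.1 s) = v.2 (s, c.lab v.1 s) ∧
    proj b' (s, c.lab v.1 s) = !v.2 (s, c.lab v.1 s) ∧ dist b b' < P.m

lemma rel_symm (c : Comp P) (s : P.S) (v : c.V) (b b' : Sp P) (h : rel c s v b b') :
    rel c s (c.move s v) b' b := by
  obtain ⟨h1, h2, h3⟩ := h
  have hl : c.lab (c.move s v).1 s = c.lab v.1 s := c.lab_mv v.1 s
  have hv : (c.move s v).2 (s, c.lab v.1 s) = !v.2 (s, c.lab v.1 s) := by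
    simp [Comp.move]
  refine ⟨?_, ?_, ?_⟩
  · rw [hl, hv, h2]
  · rw [hl, hv, h1, Bool.not_not]
  · rw [dist_comm]; exact h3

lemma track_words (c : Comp P) (B : Finset (Sp P)) (ss : List P.S) (v : c.V) (b : Sp P)
    (h : Track B c.move (rel c) ss v b) : labels c.mv c.psi ss v.1 ∈ words ss b := by
  classical
  induction ss generalizing v b with
  | nil => simp [labels, words]
  | cons s ss ih =>
    obtain ⟨b', _, ⟨h1, h2, h3⟩, h4⟩ := h
    have h5 := ih _ _ h4
    have hr : b' ∈ reach b P.m := mem_reach_of_dist_lt h3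
    have hne : proj b' (s, c.lab v.1 s) ≠ proj b (s, c.lab v.1 s) := by
      rw [h1, h2]; simp
    have hl := mem_labs le_rfl hr hne
    rw [words, mem_biUnion]
    refine ⟨(b', c.lab v.1 s), mem_product.2 ⟨hr, hl⟩, ?_⟩
    exact mem_image_of_mem _ h5

/-- For every finite set there is a component whose tracking paths are short. -/
theorem exists_comp (hk : 4 * (P.Δ * br P) ≤ P.k + 1) (B : Finset (Sp P)) :
    ∃ (c : Comp P) (L : ℕ), 0 < c.N ∧ ∀ ss : List P.S, ss.IsChain (· ≠ ·) → ss.length = L →
      ∀ v, ∀ b ∈ B, ¬ Track B c.move (rel c) ss v b := by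
  classical
  obtain ⟨L, hL⟩ : ∃ L : ℕ, 2 * (L + 1) * B.card ≤ 2 ^ L := by
    have h1 : Filter.Tendsto (fun n : ℕ => ((n:ℝ) ^ 1 / (2:ℝ) ^ n)) Filter.atTop (nhds 0) :=
      tendsto_pow_const_div_const_pow_of_one_lt 1 (by norm_num)
    have h2 : ∀ᶠ n : ℕ in Filter.atTop, ((n:ℝ) ^ 1 / (2:ℝ) ^ n) < 1 / (4 * (B.card + 1)) :=
      h1.eventually_lt_const (by positivity)
    obtain ⟨L, hL, hL1⟩ := (h2.and (Filter.eventually_ge_atTop 1)).exists
    refine ⟨L, ?_⟩
    rw [pow_one, div_lt_div_iff₀ (by positivity) (by positivity)] at hL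
    have h3 : (L:ℝ) * (4 * (B.card + 1)) < 1 * 2 ^ L := hL
    have h4 : L * (4 * (B.card + 1)) < 1 * 2 ^ L := by exact_mod_cast h3
    nlinarith [Nat.zero_le B.card, Nat.mul_le_mul_right B.card hL1]
  obtain ⟨N, mv, hN, hmv, hg⟩ := exists_girth P.Δ L
  let Bad : List P.S → Finset (List P.K) := fun ss => B.biUnion fun b => words ss b
  have hBad : ∀ ss : List P.S, ss.length = L → (Bad ss).card ≤ B.card * br P ^ L := by
    intro ss hl
    calc (Bad ss).card ≤ ∑ b ∈ B, (words ss b).card := card_biUnion_le
      _ ≤ ∑ _b ∈ B, br P ^ L := by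
          gcongr with b _
          rw [← hl]; exact card_words_le ss b
      _ = B.card * br P ^ L := by rw [sum_const, smul_eq_mul]
  have hβ : 2 * ((L + 1) * Fintype.card P.S ^ L * ((B.card * br P ^ L) * 2 ^ L)) ≤
      Fintype.card P.K ^ L := by
    rw [Fintype.card_fin, Fintype.card_fin]
    calc 2 * ((L + 1) * P.Δ ^ L * ((B.card * br P ^ L) * 2 ^ L))
        = (2 * (L + 1) * B.card) * (2 * (P.Δ * br P)) ^ L := by
          rw [mul_pow, mul_pow]; ring
      _ ≤ 2 ^ L * (2 * (P.Δ * br P)) ^ L := Nat.mul_le_mul_right _ hL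
      _ = (4 * (P.Δ * br P)) ^ L := by rw [← mul_pow]; ring_nf
      _ ≤ (P.k + 1) ^ L := Nat.pow_le_pow_left hk L
  obtain ⟨ψ, hψ⟩ := exists_labeling mv hmv L hg Bad _ hBad hβ
  refine ⟨⟨N, mv, hmv, ψ⟩, L, hN, ?_⟩
  intro ss hc hl v b hb ht
  have h1 := track_words ⟨N, mv, hmv, ψ⟩ B ss v b ht
  exact hψ v.1 ss hl hc (mem_biUnion.2 ⟨b, hb, h1⟩)

end Sp

end Vale.Agent.P090
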