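import Mathlib
import Vale.Agent.P090.Space
import Vale.Agent.P090.Core

set_option autoImplicit false

/-!
# The building blocks admit no good kernels
-/

namespace Vale.Agent.P090

open Finset Function

namespace Sp

variable {P : Params}

lemma q_iff (c : Comp P) (v : c.V) (s : P.S) (b : Sp P) :
    proj b (s, c.lab (c.move s v).1 s) = (c.move s v).2 (s, c.lab (c.move s v).1 s) ↔
      ¬ proj b (s, c.lab v.1 s) = v.2 (s, c.lab v.1 s) := by
  have hl : c.lab (c.move s v).1 s = c.lab v.1 s := c.lab_mv v.1 s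
  have hv : (c.move s v).2 (s, c.lab v.1 s) = !v.2 (s, c.lab v.1 s) := by
    simp [Comp.move]
  rw [hl, hv]
  cases proj b (s, c.lab v.1 s) <;> cases v.2 (s, c.lab v.1 s) <;> simp

/-- No good kernels on the building block: the certificate inequality. -/
theorem block (hk : 4 * (P.Δ * br P) ≤ P.k + 1) (Λ R : ℝ) (hΛ : 0 ≤ Λ) (hR : 0 < R)
    (B : Finset (Sp P)) (w : Sp P → Sp P → ℝ)
    (hw1 : ∀ (x y : Sp P) (g : Sp P → ℝ) (K : ℝ), 0 ≤ K →
      (∀ x y, |g x - g y| ≤ K * dist x y) →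
      |∑ b ∈ B, w x b * g b - ∑ b ∈ B, w y b * g b| ≤ Λ * K * dist x y)
    (hw2 : ∀ (a : P.Dir → Bool) (g : Sp P → ℝ) (K : ℝ), 0 ≤ K →
      (∀ x y, |g x - g y| ≤ K * dist x y) →
      |∑ b ∈ B, w (hub a) b * g b - g (hub a)| ≤ K) :
    (P.m / 2 : ℝ) * ((1 - (P.m + 1) / R) * P.Δ - (Λ * (P.m + 1) + 1) * (2 + P.Δ / R)
      - (1 + 2 * (Λ * (P.m + 1) + 1)) * (P.Δ / (2 * R)))
      - (1 + 2 * (Λ * (P.m + 1) + 1)) * (2 * (P.m / 2) * (R + 2)) ≤
    P.Δ * (Λ * (1 + (P.m / 2) / R) / 2) := by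
  classical
  obtain ⟨c, L, hN, hL⟩ := exists_comp hk B
  obtain ⟨D, hD1, hD2⟩ := exists_dominating B c.move (rel c) c.move_move (rel_symm c) L hL
  let C : Cert (Sp P) c.V P.S :=
    { B := B
      mv := c.move
      p := pt c
      a := fun v => hub v.2
      w := fun v => w (pt c v)
      Q := fun v s b => proj b (s, c.lab v.1 s) = v.2 (s, c.lab v.1 s)
      D := D
      h := P.m + 1
      ρ := P.m / 2
      R := R
      Lam := Λ
      E := Λ * (P.m + 1) + 1
      ρ_nonneg := by positivity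
      R_pos := hR
      E_nonneg := by positivity
      one_le := fun x y h => one_le_dist h
      mv_mv := c.move_move
      dist_p := fun s v => dist_act s (pt c v)
      dist_a := fun v => dist_hub (pt c v)
      Q_mv := fun v s b => q_iff c v s b
      n := fun v b => (cnt (fun s => c.lab v.1 s) (fun s => v.2 (s, c.lab v.1 s)) b : ℝ)
      n_def := fun v b => ⟨univ.filter (fun s => ¬ proj b (s, c.lab v.1 s) =
        v.2 (s, c.lab v.1 s)), fun s => by simp, rfl⟩
      n_lip := fun v b b' => cnt_lip _ _ b b'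
      Q_p := fun v s => rfl
      Q_a := fun v s => rfl
      D_unique := hD1
      D_sep := by
        intro v s b hb b' hb' hQ hQ' hd
        refine hD2 v s b hb b' hb' ⟨hQ, ?_, ?_⟩
        · revert hQ'
          cases proj b' (s, c.lab v.1 s) <;> cases v.2 (s, c.lab v.1 s) <;> simp
        · linarith
      w_move := by
        intro s v g K hK hg
        have h1 := hw1 (pt c v) (pt c (c.move s v)) g K hK hg
        have h2 : dist (pt c v) (pt c (c.move s v)) ≤ 1 := dist_act s (pt c v)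
        have h3 : Λ * K * dist (pt c v) (pt c (c.move s v)) ≤ Λ * K * 1 :=
          mul_le_mul_of_nonneg_left h2 (by positivity)
        linarith
      w_hub := by
        intro v g K hK hg
        have h1 := hw1 (pt c v) (hub v.2) g K hK hg
        have h2 : dist (pt c v) (hub v.2) ≤ P.m + 1 := dist_hub (pt c v)
        have h3 := hw2 v.2 g K hK hg
        have h4 : Λ * K * dist (pt c v) (hub v.2) ≤ Λ * K * (P.m + 1) :=
          mul_le_mul_of_nonneg_left h2 (by positivity)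
        have h5 := abs_sub_le (∑ b ∈ B, w (pt c v) b * g b) (∑ b ∈ B, w (hub v.2) b * g b)
          (g (hub v.2))
        calc _ ≤ _ := h5
          _ ≤ Λ * K * (P.m + 1) + K := by linarith
          _ = (Λ * (P.m + 1) + 1) * K := by ring }
  have : Nonempty c.V := ⟨(⟨0, hN⟩, fun _ => false)⟩
  have h := C.main
  simp only [C, Fintype.card_fin] at h
  exact h

end Sp

/-- The parameters for the constant `n`. -/
def par (n : ℕ) : Params :=
  let m := 6 * n
  let E := n * (m + 1) + 1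
  let K := 1 + 2 * E
  let R := 4 * (m + 1 + E + K)
  let Δ := 12 * (E + K * (R + 2))
  ⟨Δ, 4 * (Δ * ((1 + Δ) ^ m * ((1 + Δ) ^ m * Δ))), m⟩

/-- The building block for the constant `n` admits no good kernel. -/
theorem no_kernel (n : ℕ) (hn : 1 ≤ n) (B : Finset (Sp (par n))) (w : Sp (par n) → Sp (par n) → ℝ)
    (hw1 : ∀ (x y : Sp (par n)) (g : Sp (par n) → ℝ) (K : ℝ), 0 ≤ K →
      (∀ x y, |g x - g y| ≤ K * dist x y) →
      |∑ b ∈ B, w x b * g b - ∑ b ∈ B, w y b * g b| ≤ n * K * dist x y)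
    (hw2 : ∀ (a : (par n).Dir → Bool) (g : Sp (par n) → ℝ) (K : ℝ), 0 ≤ K →
      (∀ x y, |g x - g y| ≤ K * dist x y) →
      |∑ b ∈ B, w (Sp.hub a) b * g b - g (Sp.hub a)| ≤ K) : False := by
  have hn' : (1:ℝ) ≤ n := by exact_mod_cast hn
  obtain ⟨N, hN⟩ : ∃ N : ℝ, N = (n : ℝ) := ⟨_, rfl⟩
  rw [← hN] at hn'
  obtain ⟨E, hE⟩ : ∃ E : ℝ, E = N * (6 * N + 1) + 1 := ⟨_, rfl⟩
  obtain ⟨K, hK⟩ : ∃ K : ℝ, K = 1 + 2 * E := ⟨_, rfl⟩
  obtain ⟨R, hR⟩ : ∃ R : ℝ, R = 4 * (6 * N + 1 + E + K) := ⟨_, rfl⟩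
  obtain ⟨Δ, hΔ⟩ : ∃ Δ : ℝ, Δ = 12 * (E + K * (R + 2)) := ⟨_, rfl⟩
  have hE0 : 0 < E := by rw [hE]; positivity
  have hK0 : 0 < K := by rw [hK]; positivity
  have hR0 : 0 < R := by rw [hR]; positivity
  have hΔ0 : 0 < Δ := by rw [hΔ]; positivity
  have hm : (((par n).m : ℕ) : ℝ) = 6 * N := by
    rw [hN]; simp [par]
  have hD : (((par n).Δ : ℕ) : ℝ) = Δ := by
    rw [hΔ, hR, hK, hE, hN]; simp [par]
  have h := Sp.block (P := par n) (by simp only [par, Sp.br]; omega) N R (by linarith) hR0 B w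
    (by rw [hN]; exact hw1) hw2
  rw [hm, hD, ← hE, ← hK] at h
  -- numerical contradiction
  have e1 : (6 * N / 2) * ((1 - (6 * N + 1) / R) * Δ - E * (2 + Δ / R) - K * (Δ / (2 * R)))
      - K * (2 * (6 * N / 2) * (R + 2)) =
      (3 * N) * (Δ * (1 - (6 * N + 1 + E + K / 2) / R) - 2 * E - 2 * K * (R + 2)) := by
    field_simp
    ring
  have e2 : (6 * N + 1 + E + K / 2) / R ≤ 1 / 4 := by
    rw [div_le_div_iff₀ hR0 (by norm_num), hR]
    linarith
  have e3 : (6 * N / 2) / R ≤ 1 / 4 := by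
    rw [div_le_div_iff₀ hR0 (by norm_num), hR]
    linarith
  have e4 : Δ * (N * (1 + 6 * N / 2 / R) / 2) ≤ (3 * N) * (Δ * (5 / 24)) := by
    have : N * (1 + 6 * N / 2 / R) / 2 ≤ (3 * N) * (5 / 24) := by nlinarith
    calc _ ≤ Δ * ((3 * N) * (5 / 24)) := mul_le_mul_of_nonneg_left this hΔ0.le
      _ = _ := by ring
  have e5 : Δ * (3 / 4) ≤ Δ * (1 - (6 * N + 1 + E + K / 2) / R) :=
    mul_le_mul_of_nonneg_left (by linarith) hΔ0.le
  have e6 : Δ * (5 / 24) < Δ * (1 - (6 * N + 1 + E + K / 2) / R) - 2 * E - 2 * K * (R + 2) := by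
    have : 2 * E + 2 * K * (R + 2) < Δ * (3 / 4 - 5 / 24) := by
      rw [hΔ]
      have : 0 < E + K * (R + 2) := by positivity
      nlinarith
    linarith
  rw [e1] at h
  have e7 : (3 * N) * (Δ * (5 / 24)) <
      (3 * N) * (Δ * (1 - (6 * N + 1 + E + K / 2) / R) - 2 * E - 2 * K * (R + 2)) :=
    mul_lt_mul_of_pos_left e6 (by linarith)
  linarith

end Vale.Agent.P090
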