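import Mathlib

set_option autoImplicit false

/-!
# Lipschitz-free spaces and the bounded approximation property (P090)
-/

namespace Vale.Agent.P090

open Metric Set

/-- The vector space of Lipschitz functions `f : M → ℝ` with `f o = 0`. -/
def lipSubmodule (M : Type*) [MetricSpace M] (o : M) : Submodule ℝ (M → ℝ) where
  carrier := {f | f o = 0 ∧ ∃ C : ℝ, 0 ≤ C ∧ ∀ x y, |f x - f y| ≤ C * dist x y}
  add_mem' := by
    rintro f g ⟨hf, C, hC, hfC⟩ ⟨hg, D, hD, hgD⟩
    refine ⟨by simp [hf, hg], C + D, by positivity, fun x y => ?_⟩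
    have h1 := hfC x y
    have h2 := hgD x y
    have h3 : (f + g) x - (f + g) y = (f x - f y) + (g x - g y) := by
      simp only [Pi.add_apply]; ring
    rw [h3, add_mul]
    exact (abs_add_le _ _).trans (add_le_add h1 h2)
  zero_mem' := ⟨rfl, 0, le_refl _, fun x y => by simp⟩
  smul_mem' := by
    rintro c f ⟨hf, C, hC, hfC⟩
    refine ⟨by simp [hf], |c| * C, by positivity, fun x y => ?_⟩
    have h3 : (c • f) x - (c • f) y = c * (f x - f y) := by
      simp only [Pi.smul_apply, smul_eq_mul]; ring
    rw [h3, abs_mul, mul_assoc]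
    exact mul_le_mul_of_nonneg_left (hfC x y) (abs_nonneg c)

/-- `Lip₀(M)`: the Lipschitz functions `f : M → ℝ` with `f o = 0`, as a type. -/
def Lip0 (M : Type*) [MetricSpace M] (o : M) : Type _ := ↥(lipSubmodule M o)

variable {M : Type*} [MetricSpace M] {o : M}

instance : AddCommGroup (Lip0 M o) := inferInstanceAs (AddCommGroup ↥(lipSubmodule M o))

instance : Module ℝ (Lip0 M o) := inferInstanceAs (Module ℝ ↥(lipSubmodule M o))

instance : CoeFun (Lip0 M o) (fun _ => M → ℝ) := ⟨fun f => f.1⟩

@[simp] lemma Lip0.add_apply (f g : Lip0 M o) (x : M) : (f + g) x = f x + g x := rfl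

@[simp] lemma Lip0.smul_apply (c : ℝ) (f : Lip0 M o) (x : M) : (c • f) x = c * f x := rfl

@[simp] lemma Lip0.zero_apply (x : M) : (0 : Lip0 M o) x = 0 := rfl

/-- The norm of `f` in `Lip₀(M)` is its (least) Lipschitz constant. -/
noncomputable instance : Norm (Lip0 M o) :=
  ⟨fun f => sInf {C : ℝ | 0 ≤ C ∧ ∀ x y, |f x - f y| ≤ C * dist x y}⟩

lemma Lip0.norm_def (f : Lip0 M o) :
    ‖f‖ = sInf {C : ℝ | 0 ≤ C ∧ ∀ x y, |f x - f y| ≤ C * dist x y} := rfl

lemma Lip0.norm_nonneg' (f : Lip0 M o) : 0 ≤ ‖f‖ :=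
  Real.sInf_nonneg (fun _ h => h.1)

lemma Lip0.norm_le {f : Lip0 M o} {C : ℝ} (hC : 0 ≤ C)
    (h : ∀ x y, |f x - f y| ≤ C * dist x y) : ‖f‖ ≤ C :=
  csInf_le ⟨0, fun _ h => h.1⟩ ⟨hC, h⟩

lemma Lip0.abs_sub_le (f : Lip0 M o) (x y : M) : |f x - f y| ≤ ‖f‖ * dist x y := by
  rcases eq_or_ne x y with rfl | hxy
  · simp
  · have hd : 0 < dist x y := dist_pos.2 hxy
    rw [← div_le_iff₀ hd]
    apply le_csInf
    · obtain ⟨_, C, hC, h⟩ := f.2
      exact ⟨C, hC, h⟩
    · rintro C ⟨_, h⟩
      rw [div_le_iff₀ hd]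
      exact h x y

lemma Lip0.map_base (f : Lip0 M o) : f o = 0 := f.2.1

lemma lip0Core : NormedSpace.Core ℝ (Lip0 M o) where
  norm_nonneg := Lip0.norm_nonneg'
  norm_smul c f := by
    apply le_antisymm
    · apply Lip0.norm_le (mul_nonneg (norm_nonneg c) f.norm_nonneg')
      intro x y
      have h : (c • f) x - (c • f) y = c * (f x - f y) := by
        simp only [Lip0.smul_apply]; ring
      rw [h, abs_mul, mul_assoc]
      exact mul_le_mul_of_nonneg_left (f.abs_sub_le x y) (abs_nonneg c)
    · rcases eq_or_ne c 0 with rfl | hc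
      · simp only [norm_zero, zero_mul]
        exact Lip0.norm_nonneg' _
      · have hc' : 0 < |c| := abs_pos.2 hc
        rw [Real.norm_eq_abs, ← le_div_iff₀' hc']
        apply Lip0.norm_le (div_nonneg (Lip0.norm_nonneg' _) hc'.le)
        intro x y
        have h := (c • f).abs_sub_le x y
        have h2 : (c • f) x - (c • f) y = c * (f x - f y) := by
          simp only [Lip0.smul_apply]; ring
        rw [h2, abs_mul] at h
        rw [div_mul_eq_mul_div, le_div_iff₀' hc']
        exact h
  norm_triangle f g := by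
    apply Lip0.norm_le (add_nonneg f.norm_nonneg' g.norm_nonneg')
    intro x y
    have h : (f + g) x - (f + g) y = (f x - f y) + (g x - g y) := by
      simp only [Lip0.add_apply]; ring
    rw [h, add_mul]
    exact (abs_add_le _ _).trans (add_le_add (f.abs_sub_le x y) (g.abs_sub_le x y))
  norm_eq_zero_iff f := by
    constructor
    · intro h
      apply Subtype.ext
      funext x
      have h1 := f.abs_sub_le x o
      rw [h, zero_mul, f.map_base, sub_zero] at h1
      exact abs_eq_zero.1 (le_antisymm h1 (abs_nonneg _))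
    · rintro rfl
      apply le_antisymm _ (Lip0.norm_nonneg' _)
      apply Lip0.norm_le le_rfl
      intro x y
      simp

noncomputable instance : NormedAddCommGroup (Lip0 M o) := NormedAddCommGroup.ofCore lip0Core

noncomputable instance : NormedSpace ℝ (Lip0 M o) := NormedSpace.ofCore lip0Core

/-- The evaluation functional `δ_x : f ↦ f x` in the dual of `Lip₀(M)`. -/
noncomputable def delta (o x : M) : StrongDual ℝ (Lip0 M o) :=
  LinearMap.mkContinuous
    { toFun := fun f => f x
      map_add' := fun _ _ => rfl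
      map_smul' := fun _ _ => rfl } (dist x o)
    (fun f => by
      have h := f.abs_sub_le x o
      rw [f.map_base, sub_zero] at h
      rw [mul_comm]
      exact h)

@[simp] lemma delta_apply (x : M) (f : Lip0 M o) : delta o x f = f x := rfl

/-- The Lipschitz-free space `F(M)`: the norm closure, in the dual of `Lip₀(M)`, of the linear
span of the evaluation functionals. -/
noncomputable def freeSpace (M : Type*) [MetricSpace M] (o : M) :
    Submodule ℝ (StrongDual ℝ (Lip0 M o)) :=
  (Submodule.span ℝ (Set.range (fun x : M => delta o x))).topologicalClosure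

/-- `X` has the `lam`-bounded approximation property: for every norm-compact `C ⊆ X` and every
`ε > 0` there is a bounded finite-rank operator `T` on `X` with `‖T‖ ≤ lam` and `‖T u - u‖ < ε`
for all `u ∈ C`. -/
def HasBAPWith (X : Type*) [NormedAddCommGroup X] [NormedSpace ℝ X] (lam : ℝ) : Prop :=
  ∀ C : Set X, IsCompact C → ∀ ε : ℝ, 0 < ε →
    ∃ T : X →L[ℝ] X, FiniteDimensional ℝ (LinearMap.range (T : X →ₗ[ℝ] X)) ∧
      ‖T‖ ≤ lam ∧ ∀ u ∈ C, ‖T u - u‖ < ε

/-- `X` has the bounded approximation property. -/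
def HasBAP (X : Type*) [NormedAddCommGroup X] [NormedSpace ℝ X] : Prop :=
  ∃ lam : ℝ, 1 ≤ lam ∧ HasBAPWith X lam

/-- `M` is uniformly discrete: distances between distinct points are bounded below by a positive
constant. -/
def UniformlyDiscrete (M : Type*) [MetricSpace M] : Prop :=
  ∃ r : ℝ, 0 < r ∧ ∀ x y : M, x ≠ y → r ≤ dist x y

end Vale.Agent.P090
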