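import Mathlib
import Vale.Agent.P090.Defs

set_option autoImplicit false

/-!
# From a finite-rank operator on the free space to a finitely supported kernel
-/

namespace Vale.Agent.P090

open Metric Set

lemma exists_approx {E : Type*} [NormedAddCommGroup E] [NormedSpace ℝ E] (T : E →L[ℝ] E)
    (hT : FiniteDimensional ℝ (LinearMap.range (T : E →ₗ[ℝ] E))) (D : Set E) (hD : Dense D)
    {ε : ℝ} (hε : 0 < ε) :
    ∃ (n : ℕ) (φ : Fin n → StrongDual ℝ E) (e : Fin n → E), (∀ j, e j ∈ D) ∧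
      ∀ u, ‖T u - ∑ j, φ j u • e j‖ ≤ ε * ‖u‖ := by
  classical
  set R := LinearMap.range (T : E →ₗ[ℝ] E) with hR
  set bs := Module.finBasis ℝ R with hbs
  let TR : E →L[ℝ] R := T.codRestrict R (fun x => LinearMap.mem_range_self _ x)
  let φ : Fin (Module.finrank ℝ R) → StrongDual ℝ E := fun j =>
    (LinearMap.toContinuousLinearMap (bs.coord j)).comp TR
  have hφ : ∀ u, T u = ∑ j, φ j u • (bs j : E) := by
    intro u
    have h1 : (∑ j, bs.repr (TR u) j • bs j) = TR u := bs.sum_repr (TR u)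
    have h2 := congrArg (fun z : R => (z : E)) h1
    simp only [Submodule.coe_sum, Submodule.coe_smul] at h2
    exact h2.symm
  set s : ℝ := ∑ j, ‖φ j‖ with hs
  have hs0 : 0 ≤ s := Finset.sum_nonneg (fun _ _ => norm_nonneg _)
  set η : ℝ := ε / (s + 1) with hη
  have hη0 : 0 < η := by positivity
  have hηs : s * η ≤ ε := by
    rw [hη, mul_div_assoc', div_le_iff₀ (by positivity)]
    nlinarith
  have hex : ∀ j, ∃ e' ∈ D, ‖(bs j : E) - e'‖ < η := by
    intro j
    obtain ⟨e', he', hd⟩ := hD.exists_dist_lt (bs j : E) hη0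
    exact ⟨e', he', by rwa [dist_eq_norm] at hd⟩
  choose e he hd using hex
  refine ⟨_, φ, e, he, fun u => ?_⟩
  have h3 : T u - ∑ j, φ j u • e j = ∑ j, φ j u • ((bs j : E) - e j) := by
    rw [hφ u, ← Finset.sum_sub_distrib]
    exact Finset.sum_congr rfl (fun j _ => (smul_sub _ _ _).symm)
  rw [h3]
  calc ‖∑ j, φ j u • ((bs j : E) - e j)‖ ≤ ∑ j, ‖φ j u • ((bs j : E) - e j)‖ := norm_sum_le _ _
    _ ≤ ∑ j, (‖φ j‖ * ‖u‖) * η := by
        apply Finset.sum_le_sum
        intro j _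
        rw [norm_smul]
        exact mul_le_mul ((φ j).le_opNorm u) (hd j).le (norm_nonneg _) (by positivity)
    _ = (s * η) * ‖u‖ := by
        rw [hs, ← Finset.sum_mul, ← Finset.sum_mul]; ring
    _ ≤ ε * ‖u‖ := mul_le_mul_of_nonneg_right hηs (norm_nonneg _)

variable {M : Type*} [MetricSpace M] {o : M}

theorem reduct_abs {E : Type*} [NormedAddCommGroup E] [NormedSpace ℝ E] (lam : ℝ)
    (h : HasBAPWith E lam) (d : M → E) (hd : ∀ x y, ‖d x - d y‖ ≤ dist x y)
    (hdense : Dense ((Submodule.span ℝ (Set.range d) : Submodule ℝ E) : Set E)) 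
    (pair : ∀ (g : M → ℝ) (K : ℝ), 0 ≤ K → (∀ x y, |g x - g y| ≤ K * dist x y) →
      ∃ Φ : StrongDual ℝ E, ‖Φ‖ ≤ K ∧ ∀ x, Φ (d x) = g x - g o) (A : Finset M) :
    ∃ (B : Finset M) (w : M → M → ℝ),
      (∀ (x y : M) (g : M → ℝ) (K : ℝ), 0 ≤ K → (∀ x y, |g x - g y| ≤ K * dist x y) →
        |∑ b ∈ B, w x b * g b - ∑ b ∈ B, w y b * g b| ≤ (lam + 1) * K * dist x y) ∧
      (∀ a ∈ A, ∀ (g : M → ℝ) (K : ℝ), 0 ≤ K → (∀ x y, |g x - g y| ≤ K * dist x y) →
        |∑ b ∈ B, w a b * g b - g a| ≤ K) := by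
  classical
  have hC : IsCompact (d '' (A : Set M)) := (A.finite_toSet.image _).isCompact
  obtain ⟨T, hTf, hTn, hTC⟩ := h _ hC (1 / 2) (by norm_num)
  set s : ℝ := ∑ a ∈ A, ‖d a‖ with hs
  have hs0 : 0 ≤ s := Finset.sum_nonneg (fun i _ => norm_nonneg (d i))
  set ε : ℝ := 1 / (2 * (s + 1)) with hε
  have hε0 : 0 < ε := by positivity
  have hε1 : ε ≤ 1 := by
    rw [hε, div_le_one (by positivity)]; linarith
  have hεs : ∀ a ∈ A, ε * ‖d a‖ ≤ 1 / 2 := by
    intro a ha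
    have h1 : ‖d a‖ ≤ s :=
      Finset.single_le_sum (f := fun a => ‖d a‖) (fun i _ => norm_nonneg (d i)) ha
    rw [hε, div_mul_eq_mul_div, div_le_iff₀ (by positivity)]
    linarith
  obtain ⟨n, φ, e, he, hT'⟩ := exists_approx T hTf _ hdense hε0
  have hex : ∀ j, ∃ c : M →₀ ℝ, (c.sum fun b r => r • d b) = e j := by
    intro j
    exact Finsupp.mem_span_range_iff_exists_finsupp.1 (he j)
  choose c hc using hex
  set B : Finset M := insert o (Finset.univ.biUnion fun j => (c j).support) with hB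
  have hoB : o ∈ B := Finset.mem_insert_self _ _
  have hcB : ∀ j, (c j).support ⊆ B := by
    intro j b hb
    exact Finset.mem_insert_of_mem (Finset.mem_biUnion.2 ⟨j, Finset.mem_univ _, hb⟩)
  have heval : ∀ j (Φ : StrongDual ℝ E), Φ (e j) = ∑ b ∈ B, c j b * Φ (d b) := by
    intro j Φ
    rw [← hc j, Finsupp.sum_of_support_subset (c j) (hcB j) _ (by simp), map_sum]
    simp
  let t : M → M → ℝ := fun x b => ∑ j, φ j (d x) * c j b
  let Tp : M → E := fun x => ∑ j, φ j (d x) • e j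
  have hTp : ∀ x (Φ : StrongDual ℝ E), Φ (Tp x) = ∑ b ∈ B, t x b * Φ (d b) := by
    intro x Φ
    simp only [Tp, map_sum, map_smul, smul_eq_mul, heval, t]
    simp_rw [Finset.mul_sum, Finset.sum_mul]
    rw [Finset.sum_comm]
    exact Finset.sum_congr rfl fun b _ => Finset.sum_congr rfl fun j _ => by ring
  let w : M → M → ℝ := fun x b => t x b + (if b = o then 1 - ∑ b' ∈ B, t x b' else 0)
  have hw : ∀ x (g : M → ℝ), ∑ b ∈ B, w x b * g b =
      g o + ∑ b ∈ B, t x b * (g b - g o) := by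
    intro x g
    simp only [w, add_mul, Finset.sum_add_distrib, ite_mul, zero_mul, Finset.sum_ite_eq', hoB,
      if_true, mul_sub, Finset.sum_sub_distrib]
    rw [← Finset.sum_mul]
    ring
  have hlam : 0 ≤ lam + 1 := by
    have := (norm_nonneg T).trans hTn
    linarith
  refine ⟨B, w, ?_, ?_⟩
  · intro x y g K hK hg
    obtain ⟨Φ, hΦ, hΦg⟩ := pair g K hK hg
    have h1 : ∑ b ∈ B, w x b * g b - ∑ b ∈ B, w y b * g b = Φ (Tp x - Tp y) := by
      rw [hw, hw, map_sub, hTp, hTp]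
      simp only [hΦg]
      ring
    have h2 : Tp x - Tp y = ∑ j, φ j (d x - d y) • e j := by
      simp only [Tp, map_sub, sub_smul, Finset.sum_sub_distrib]
    have h3 : ‖Tp x - Tp y‖ ≤ (lam + 1) * dist x y := by
      have h4 := hT' (d x - d y)
      have h5 : ‖T (d x - d y)‖ ≤ lam * ‖d x - d y‖ := T.le_of_opNorm_le hTn _
      have h6 : ‖Tp x - Tp y‖ ≤ ‖T (d x - d y)‖ +
          ‖T (d x - d y) - ∑ j, φ j (d x - d y) • e j‖ := by
        rw [h2]
        have h10 := norm_sub_le (T (d x - d y)) (T (d x - d y) - ∑ j, φ j (d x - d y) • e j)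
        rwa [sub_sub_cancel] at h10
      have h8 := norm_nonneg (d x - d y)
      have h9 := hd x y
      calc ‖Tp x - Tp y‖ ≤ lam * ‖d x - d y‖ + ε * ‖d x - d y‖ := by linarith
        _ ≤ (lam + 1) * ‖d x - d y‖ := by nlinarith
        _ ≤ (lam + 1) * dist x y := mul_le_mul_of_nonneg_left h9 hlam
    rw [h1]
    calc |Φ (Tp x - Tp y)| ≤ ‖Φ‖ * ‖Tp x - Tp y‖ := Φ.le_opNorm _
      _ ≤ K * ((lam + 1) * dist x y) := mul_le_mul hΦ h3 (norm_nonneg _) hK
      _ = (lam + 1) * K * dist x y := by ring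
  · intro a ha g K hK hg
    obtain ⟨Φ, hΦ, hΦg⟩ := pair g K hK hg
    have h1 : ∑ b ∈ B, w a b * g b - g a = Φ (Tp a - d a) := by
      rw [hw, map_sub, hTp]
      simp only [hΦg]
      ring
    have h3 : ‖Tp a - d a‖ ≤ 1 := by
      have h4 := hT' (d a)
      have h5 : ‖T (d a) - d a‖ < 1 / 2 := hTC _ ⟨a, ha, rfl⟩
      have h6 := hεs a ha
      have h7 : Tp a - d a = (T (d a) - d a) - (T (d a) - Tp a) := by abel
      rw [h7]
      calc ‖(T (d a) - d a) - (T (d a) - Tp a)‖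
          ≤ ‖T (d a) - d a‖ + ‖T (d a) - Tp a‖ := norm_sub_le _ _
        _ ≤ 1 := by
          have : ‖T (d a) - Tp a‖ ≤ ε * ‖d a‖ := h4
          linarith
    rw [h1]
    calc |Φ (Tp a - d a)| ≤ ‖Φ‖ * ‖Tp a - d a‖ := Φ.le_opNorm _
      _ ≤ K * 1 := mul_le_mul hΦ h3 (norm_nonneg _) hK
      _ = K := mul_one K

lemma norm_delta_sub_le (x y : M) : ‖delta o x - delta o y‖ ≤ dist x y := by
  apply ContinuousLinearMap.opNorm_le_bound _ dist_nonneg
  intro f
  have h := f.abs_sub_le x y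
  rw [mul_comm]
  exact h

/-- `δ_x` as an element of the free space. -/
noncomputable def dl (o x : M) : freeSpace M o :=
  ⟨delta o x, subset_closure (Submodule.subset_span ⟨x, rfl⟩)⟩

lemma coe_dl (x : M) : ((dl o x : freeSpace M o) : StrongDual ℝ (Lip0 M o)) = delta o x :=
  rfl

lemma dense_span_dl :
    Dense ((Submodule.span ℝ (Set.range (fun x : M => dl o x)) : Submodule ℝ (freeSpace M o)) :
      Set (freeSpace M o)) := by
  rw [Metric.dense_iff]
  rintro ⟨u, hu⟩ r hr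
  have hu' : u ∈ closure ((Submodule.span ℝ (Set.range (fun x : M => delta o x)) :
      Submodule ℝ (StrongDual ℝ (Lip0 M o))) : Set (StrongDual ℝ (Lip0 M o))) := hu
  rw [Metric.mem_closure_iff] at hu'
  obtain ⟨v, hv, hvd⟩ := hu' r hr
  refine ⟨⟨v, subset_closure hv⟩, ?_, ?_⟩
  · rw [Metric.mem_ball, dist_comm]
    exact hvd
  · obtain ⟨c, hc⟩ := Finsupp.mem_span_range_iff_exists_finsupp.1 hv
    have h1 : (⟨v, subset_closure hv⟩ : freeSpace M o) = c.sum fun b r => r • dl o b := by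
      apply Subtype.ext
      have h2 : ((c.sum fun b r => r • dl o b : freeSpace M o) :
          StrongDual ℝ (Lip0 M o)) = c.sum fun b r => r • delta o b := by
        simp only [Finsupp.sum, Submodule.coe_sum, Submodule.coe_smul]
        rfl
      exact hc.symm.trans h2.symm
    rw [h1]
    exact Submodule.sum_mem _ fun b _ =>
      Submodule.smul_mem _ _ (Submodule.subset_span ⟨b, rfl⟩)

theorem reduct (lam : ℝ) (h : HasBAPWith (freeSpace M o) lam) (A : Finset M) :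
    ∃ (B : Finset M) (w : M → M → ℝ),
      (∀ (x y : M) (g : M → ℝ) (K : ℝ), 0 ≤ K → (∀ x y, |g x - g y| ≤ K * dist x y) →
        |∑ b ∈ B, w x b * g b - ∑ b ∈ B, w y b * g b| ≤ (lam + 1) * K * dist x y) ∧
      (∀ a ∈ A, ∀ (g : M → ℝ) (K : ℝ), 0 ≤ K → (∀ x y, |g x - g y| ≤ K * dist x y) →
        |∑ b ∈ B, w a b * g b - g a| ≤ K) := by
  refine reduct_abs (o := o) lam h (fun x => dl o x) (fun x y => norm_delta_sub_le x y)
    dense_span_dl ?_ A
  · intro g K hK hg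
    have hg' : ∀ x y, |(g x - g o) - (g y - g o)| ≤ K * dist x y := by
      intro x y
      have : (g x - g o) - (g y - g o) = g x - g y := by ring
      rw [this]; exact hg x y
    let f : Lip0 M o := ⟨fun x => g x - g o, sub_self _, K, hK, hg'⟩
    have hf : ‖f‖ ≤ K := Lip0.norm_le hK hg'
    let Φ0 : StrongDual ℝ (StrongDual ℝ (Lip0 M o)) := NormedSpace.inclusionInDoubleDual ℝ _ f
    refine ⟨Φ0.comp (freeSpace M o).subtypeL, ?_, fun x => rfl⟩
    apply ContinuousLinearMap.opNorm_le_bound _ hK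
    intro u
    have h1 : ‖(u : StrongDual ℝ (Lip0 M o)) f‖ ≤ ‖(u : StrongDual ℝ (Lip0 M o))‖ * ‖f‖ :=
      ContinuousLinearMap.le_opNorm _ f
    calc ‖(Φ0.comp (freeSpace M o).subtypeL) u‖ = ‖(u : StrongDual ℝ (Lip0 M o)) f‖ := rfl
      _ ≤ ‖(u : StrongDual ℝ (Lip0 M o))‖ * ‖f‖ := h1
      _ ≤ ‖(u : StrongDual ℝ (Lip0 M o))‖ * K := mul_le_mul_of_nonneg_left hf (norm_nonneg _)
      _ = K * ‖u‖ := mul_comm _ _

end Vale.Agent.P090
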