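import Mathlib
import Vale.Agent.P090.Block
import Vale.Agent.P090.Reduct

set_option autoImplicit false

/-!
# Gluing the building blocks
-/

namespace Vale.Agent.P090

open Finset Function

/-- The counterexample: the disjoint union of the building blocks. -/
def Big : Type := Σ n : ℕ, Sp (par n)

noncomputable instance : MetricSpace Big :=
  Metric.Sigma.metricSpace (E := fun n => Sp (par n))

/-- Inclusion of a block. -/
def inc (n : ℕ) (x : Sp (par n)) : Big := ⟨n, x⟩

lemma dist_inc (n : ℕ) (x y : Sp (par n)) : dist (inc n x) (inc n y) = dist x y :=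
  Metric.Sigma.dist_same (E := fun n => Sp (par n)) n x y

/-- The base points used by the gluing. -/
noncomputable def base (n : ℕ) : Sp (par n) := Nonempty.some ⟨Sp.hub (fun _ => false)⟩

lemma dist_inc_ne {i j : ℕ} (h : i ≠ j) (x : Sp (par i)) (y : Sp (par j)) :
    dist (inc i x) (inc j y) = dist x (base i) + 1 + dist (base j) y :=
  Metric.Sigma.dist_ne (E := fun n => Sp (par n)) h x y

open Classical in
/-- The retraction onto a block. -/
noncomputable def ret (n : ℕ) (z : Big) : Sp (par n) :=
  if h : z.1 = n then cast (by rw [h]) z.2 else base n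

lemma ret_inc (n : ℕ) (x : Sp (par n)) : ret n (inc n x) = x := by
  unfold ret inc; simp

lemma ret_inc_ne {n i : ℕ} (h : i ≠ n) (x : Sp (par i)) : ret n (inc i x) = base n := by
  unfold ret inc; simp [h]

lemma ret_lip (n : ℕ) (x y : Big) : dist (ret n x) (ret n y) ≤ dist x y := by
  obtain ⟨i, x⟩ := x
  obtain ⟨j, y⟩ := y
  show dist (ret n (inc i x)) (ret n (inc j y)) ≤ dist (inc i x) (inc j y)
  by_cases hi : i = n
  · subst hi
    by_cases hj : j = i
    · subst hj
      rw [ret_inc, ret_inc, dist_inc]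
    · rw [ret_inc, ret_inc_ne hj, dist_inc_ne (Ne.symm hj)]
      have := dist_nonneg (x := base j) (y := y)
      linarith
  · by_cases hj : j = n
    · subst hj
      rw [ret_inc, ret_inc_ne hi, dist_inc_ne hi]
      have := dist_nonneg (x := x) (y := base i)
      linarith
    · rw [ret_inc_ne hi, ret_inc_ne hj, dist_self]
      exact dist_nonneg

lemma uniformlyDiscrete_Big : UniformlyDiscrete Big := by
  refine ⟨1, one_pos, ?_⟩
  rintro ⟨i, x⟩ ⟨j, y⟩ hne
  show 1 ≤ dist (inc i x) (inc j y)
  by_cases h : i = j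
  · subst h
    rw [dist_inc]
    apply Sp.one_le_dist
    rintro rfl
    exact hne rfl
  · exact Metric.Sigma.one_le_dist_of_ne (E := fun n => Sp (par n)) h x y

instance (P : Params) : Countable (Comp P) := by
  have : Injective (fun c : Comp P =>
      (⟨c.N, c.mv, c.psi⟩ : Σ N : ℕ, (P.S → Fin N → Fin N) × (Fin N → P.K))) := by
    rintro ⟨N, mv, h, psi⟩ ⟨N', mv', h', psi'⟩ heq
    simp only [Sigma.mk.injEq] at heq
    obtain ⟨rfl, heq⟩ := heq
    simp only [heq_eq_eq, Prod.mk.injEq] at heq
    obtain ⟨rfl, rfl⟩ := heq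
    rfl
  exact this.countable

instance (P : Params) : Countable (Sp P) :=
  inferInstanceAs (Countable ((P.Dir → Bool) ⊕ (Σ c : Comp P, c.V)))

instance : Countable Big := inferInstanceAs (Countable (Σ n : ℕ, Sp (par n)))

lemma sum_push {n : ℕ} (B : Finset Big) (u : Big → ℝ) (g : Sp (par n) → ℝ) [DecidableEq (Sp (par n))] :
    ∑ b' ∈ B.image (ret n), (∑ b ∈ B.filter (fun b => ret n b = b'), u b) * g b' =
      ∑ b ∈ B, u b * g (ret n b) := by
  rw [← Finset.sum_fiberwise_of_maps_to (s := B) (t := B.image (ret n)) (g := ret n)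
    (fun b hb => mem_image_of_mem _ hb)]
  apply Finset.sum_congr rfl
  intro b' _
  rw [Finset.sum_mul]
  apply Finset.sum_congr rfl
  intro b hb
  rw [(mem_filter.1 hb).2]

theorem not_hasBAP_Big (o : Big) : ¬ HasBAP (freeSpace Big o) := by
  classical
  rintro ⟨lam, hlam, h⟩
  obtain ⟨n, hn⟩ := exists_nat_ge (lam + 1)
  have hn1 : 1 ≤ n := by
    have : (1:ℝ) ≤ n := by linarith
    exact_mod_cast this
  let A : Finset Big := univ.image (fun a : (par n).Dir → Bool => inc n (Sp.hub a))
  obtain ⟨B, w, hw1, hw2⟩ := reduct lam h A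
  refine no_kernel n hn1 (B.image (ret n))
    (fun x b' => ∑ b ∈ B.filter (fun b => ret n b = b'), w (inc n x) b) ?_ ?_
  · intro x y g K hK hg
    rw [sum_push B (w (inc n x)) g, sum_push B (w (inc n y)) g]
    have hg' : ∀ z z' : Big, |g (ret n z) - g (ret n z')| ≤ K * dist z z' := by
      intro z z'
      exact (hg _ _).trans (mul_le_mul_of_nonneg_left (ret_lip n z z') hK)
    have h1 := hw1 (inc n x) (inc n y) (fun z => g (ret n z)) K hK hg'
    rw [dist_inc] at h1
    refine h1.trans ?_
    have : 0 ≤ K * dist x y := mul_nonneg hK dist_nonneg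
    nlinarith
  · intro a g K hK hg
    rw [sum_push B (w (inc n (Sp.hub a))) g]
    have hg' : ∀ z z' : Big, |g (ret n z) - g (ret n z')| ≤ K * dist z z' := by
      intro z z'
      exact (hg _ _).trans (mul_le_mul_of_nonneg_left (ret_lip n z z') hK)
    have h1 := hw2 (inc n (Sp.hub a)) (mem_image_of_mem _ (mem_univ _))
      (fun z => g (ret n z)) K hK hg'
    simp only [ret_inc] at h1
    exact h1

end Vale.Agent.P090
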